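import Mathlib

/-! Abstract lemmas on graded cochain complexes with a commuting operator `∂`, `∂ ^ p = 0`, such
that `ker ∂ = im ∂ ^ (p - 1)` and `ker ∂ ^ (p - 1) = im ∂`. -/

namespace Vale.Agent.P257.X

/-- A cochain complex of additive groups with an internal degree, inside an ambient group. -/
structure Cpx (A : Type*) [AddCommGroup A] where
  K : ℕ → ℤ → AddSubgroup A
  d : ℕ → A →+ A
  d_mem : ∀ s N, ∀ f ∈ K s N, d s f ∈ K (s + 1) N
  d_d : ∀ s N, ∀ f ∈ K s N, d (s + 1) (d s f) = 0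

namespace Cpx

variable {A A' : Type*} [AddCommGroup A] [AddCommGroup A'] (C : Cpx A) (C' : Cpx A')

/-- Cocycles. -/
def Z (s : ℕ) (N : ℤ) (f : A) : Prop := f ∈ C.K s N ∧ C.d s f = 0

/-- Coboundaries. -/
def B : ℕ → ℤ → A → Prop
  | 0, _, f => f = 0
  | s + 1, N, f => ∃ g ∈ C.K s N, C.d s g = f

/-- Exactness in the given degree. -/
def Ex (s : ℕ) (N : ℤ) : Prop := ∀ f, C.Z s N f → C.B s N f

variable {C C'}

theorem B.zero (s N) : C.B s N 0 := by
  cases s with
  | zero => rfl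
  | succ s => exact ⟨0, zero_mem _, map_zero _⟩

theorem B.add {s N} {f g : A} (hf : C.B s N f) (hg : C.B s N g) : C.B s N (f + g) := by
  cases s with
  | zero => simp only [B] at *; rw [hf, hg, add_zero]
  | succ s =>
    obtain ⟨a, ha, rfl⟩ := hf
    obtain ⟨b, hb, rfl⟩ := hg
    exact ⟨a + b, add_mem ha hb, map_add _ _ _⟩

theorem B.neg {s N} {f : A} (hf : C.B s N f) : C.B s N (-f) := by
  cases s with
  | zero => simp only [B] at *; rw [hf, neg_zero]
  | succ s =>
    obtain ⟨a, ha, rfl⟩ := hf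
    exact ⟨-a, neg_mem ha, map_neg _ _⟩

theorem B.sub {s N} {f g : A} (hf : C.B s N f) (hg : C.B s N g) : C.B s N (f - g) := by
  rw [sub_eq_add_neg]; exact hf.add hg.neg

theorem B.mem {s N} {f : A} (hf : C.B s N f) : f ∈ C.K s N := by
  cases s with
  | zero => simp only [B] at hf; rw [hf]; exact zero_mem _
  | succ s => obtain ⟨a, ha, rfl⟩ := hf; exact C.d_mem _ _ _ ha

theorem B.z {s N} {f : A} (hf : C.B s N f) : C.Z s N f := by
  refine ⟨hf.mem, ?_⟩
  cases s with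
  | zero => simp only [B] at hf; rw [hf]; exact map_zero _
  | succ s => obtain ⟨a, ha, rfl⟩ := hf; exact C.d_d _ _ _ ha

theorem Z.zero (s N) : C.Z s N 0 := (B.zero s N).z

theorem Z.add {s N} {f g : A} (hf : C.Z s N f) (hg : C.Z s N g) : C.Z s N (f + g) :=
  ⟨add_mem hf.1 hg.1, by rw [map_add, hf.2, hg.2, add_zero]⟩

theorem Z.neg {s N} {f : A} (hf : C.Z s N f) : C.Z s N (-f) :=
  ⟨neg_mem hf.1, by rw [map_neg, hf.2, neg_zero]⟩

theorem Z.sub {s N} {f g : A} (hf : C.Z s N f) (hg : C.Z s N g) : C.Z s N (f - g) := by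
  rw [sub_eq_add_neg]; exact hf.add hg.neg

theorem Z.d {s N} {f : A} (hf : f ∈ C.K s N) : C.Z (s + 1) N (C.d s f) :=
  ⟨C.d_mem _ _ _ hf, C.d_d _ _ _ hf⟩

theorem B.d {s N} {f : A} (hf : f ∈ C.K s N) : C.B (s + 1) N (C.d s f) := ⟨f, hf, rfl⟩

/-- An injective map of complexes, onto. -/
structure Iso (C : Cpx A) (C' : Cpx A') (e : A →+ A') : Prop where
  mem : ∀ s N, ∀ f ∈ C.K s N, e f ∈ C'.K s N
  comm : ∀ s N, ∀ f ∈ C.K s N, e (C.d s f) = C'.d s (e f)
  inj : Function.Injective e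
  surj : ∀ s N, ∀ f ∈ C'.K s N, ∃ g ∈ C.K s N, e g = f

theorem Iso.z_iff {e : A →+ A'} (h : Iso C C' e) {s N} {f : A} (hf : f ∈ C.K s N) :
    C'.Z s N (e f) ↔ C.Z s N f := by
  constructor
  · rintro ⟨-, h2⟩
    refine ⟨hf, h.inj ?_⟩
    rw [h.comm _ _ _ hf, h2, map_zero]
  · rintro ⟨-, h2⟩
    exact ⟨h.mem _ _ _ hf, by rw [← h.comm _ _ _ hf, h2, map_zero]⟩

theorem Iso.b_iff {e : A →+ A'} (h : Iso C C' e) {s N} {f : A} :
    C'.B s N (e f) ↔ C.B s N f := by
  cases s with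
  | zero =>
    simp only [B]
    exact ⟨fun hf => h.inj (by rw [hf, map_zero]), fun hf => by rw [hf, map_zero]⟩
  | succ s =>
    constructor
    · rintro ⟨g, hg, hf⟩
      obtain ⟨g', hg', rfl⟩ := h.surj _ _ _ hg
      exact ⟨g', hg', h.inj (by rw [h.comm _ _ _ hg', hf])⟩
    · rintro ⟨g, hg, rfl⟩
      exact ⟨e g, h.mem _ _ _ hg, (h.comm _ _ _ hg).symm⟩

theorem Iso.ex_iff {e : A →+ A'} (h : Iso C C' e) {s N} : C'.Ex s N ↔ C.Ex s N := by
  constructor
  · intro hE f hf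
    exact h.b_iff.1 (hE _ ((h.z_iff hf.1).2 hf))
  · intro hE f hf
    obtain ⟨g, hg, rfl⟩ := h.surj _ _ _ hf.1
    exact h.b_iff.2 (hE _ ((h.z_iff hg).1 hf))

/-- A map of complexes which raises the degrees by `(2, n)`. -/
structure Op (C : Cpx A) (n : ℤ) (β : A →+ A) : Prop where
  mem : ∀ s N, ∀ f ∈ C.K s N, β f ∈ C.K (s + 2) (N + n)
  comm : ∀ s N, ∀ f ∈ C.K s N, β (C.d s f) = C.d (s + 2) (β f)

/-- The cone of `β`. -/
def Cone (C : Cpx A) {n : ℤ} {β : A →+ A} (h : Op C n β) : Cpx (A × A) where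
  K s N := (C.K s N).prod (match s with
    | 0 => ⊥
    | s + 1 => C.K s (N - n))
  d s := AddMonoidHom.prod ((C.d s).comp (AddMonoidHom.fst A A) + β.comp (AddMonoidHom.snd A A))
    (-(C.d (s - 1)).comp (AddMonoidHom.snd A A))
  d_mem s N f hf := by
    obtain ⟨f, g⟩ := f
    rw [AddSubgroup.mem_prod] at hf
    obtain ⟨h1, h2⟩ := hf
    rw [AddSubgroup.mem_prod]
    cases s with
    | zero =>
      simp only [AddSubgroup.mem_bot] at h2
      subst h2
      refine ⟨?_, ?_⟩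
      · simpa using C.d_mem _ _ _ h1
      · simp
    | succ s =>
      simp only at h1 h2
      refine ⟨?_, ?_⟩
      · simp only [AddMonoidHom.prod_apply, AddMonoidHom.add_apply, AddMonoidHom.comp_apply,
          AddMonoidHom.coe_fst, AddMonoidHom.coe_snd]
        refine add_mem (C.d_mem _ _ _ h1) ?_
        have := h.mem _ _ _ h2
        rwa [sub_add_cancel] at this
      · simp only [AddMonoidHom.prod_apply, AddMonoidHom.neg_apply, AddMonoidHom.comp_apply,
          AddMonoidHom.coe_snd, Nat.add_sub_cancel]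
        exact neg_mem (C.d_mem _ _ _ h2)
  d_d s N f hf := by
    obtain ⟨f, g⟩ := f
    rw [AddSubgroup.mem_prod] at hf
    obtain ⟨h1, h2⟩ := hf
    cases s with
    | zero =>
      simp only [AddSubgroup.mem_bot] at h2
      subst h2
      ext
      · simpa using C.d_d _ _ _ h1
      · simp
    | succ s =>
      simp only at h1 h2
      ext
      · simp [C.d_d _ _ _ h1, h.comm _ _ _ h2]
      · simp [C.d_d _ _ _ h2]

theorem cone_d {n : ℤ} {β : A →+ A} (h : Op C n β) (s : ℕ) (x : A × A) :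
    (C.Cone h).d s x = (C.d s x.1 + β x.2, - C.d (s - 1) x.2) := rfl

theorem mem_cone_zero {n : ℤ} {β : A →+ A} (h : Op C n β) {N : ℤ} {x : A × A} :
    x ∈ (C.Cone h).K 0 N ↔ x.1 ∈ C.K 0 N ∧ x.2 = 0 := by
  change x ∈ (C.K 0 N).prod ⊥ ↔ _
  rw [AddSubgroup.mem_prod, AddSubgroup.mem_bot]

theorem mem_cone_succ {n : ℤ} {β : A →+ A} (h : Op C n β) {s : ℕ} {N : ℤ} {x : A × A} :
    x ∈ (C.Cone h).K (s + 1) N ↔ x.1 ∈ C.K (s + 1) N ∧ x.2 ∈ C.K s (N - n) := by
  change x ∈ (C.K (s + 1) N).prod (C.K s (N - n)) ↔ _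
  rw [AddSubgroup.mem_prod]

/-- If the cone is exact, `β` is onto and injective on cohomology. -/
theorem Op.epi {n : ℤ} {β : A →+ A} (h : Op C n β) {s N} (hE : (C.Cone h).Ex (s + 2) (N + n))
    {f : A} (hf : C.Z (s + 2) (N + n) f) :
    ∃ g, C.Z s N g ∧ C.B (s + 2) (N + n) (f - β g) := by
  obtain ⟨x, hx, hx'⟩ := hE (f, 0) ⟨(mem_cone_succ h).2 ⟨hf.1, zero_mem _⟩, by
    rw [cone_d]; simp [hf.2]⟩
  rw [mem_cone_succ] at hx
  rw [cone_d, Prod.mk.injEq] at hx'
  simp only [Nat.add_sub_cancel] at hx'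
  refine ⟨x.2, ⟨by simpa using hx.2, by simpa using hx'.2⟩, x.1, hx.1, ?_⟩
  rw [← hx'.1]; abel

theorem Op.mono {n : ℤ} {β : A →+ A} (h : Op C n β) {s N} (hE : (C.Cone h).Ex (s + 1) (N + n))
    {g : A} (hg : C.Z s N g) (hb : C.B (s + 2) (N + n) (β g)) : C.B s N g := by
  obtain ⟨w, hw, hw'⟩ := hb
  obtain ⟨x, hx, hx'⟩ := hE (-w, g) ⟨(mem_cone_succ h).2 ⟨neg_mem hw, by simpa using hg.1⟩, by
    rw [cone_d]; simp [hg.2, hw']⟩
  rw [cone_d, Prod.mk.injEq] at hx'
  cases s with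
  | zero =>
    rw [mem_cone_zero] at hx
    have := hx'.2
    rw [hx.2, map_zero, neg_zero] at this
    exact this.symm
  | succ s =>
    rw [mem_cone_succ] at hx
    refine ⟨-x.2, neg_mem (by simpa using hx.2), ?_⟩
    rw [map_neg]
    exact hx'.2

/-- A derivation-like operator. -/
structure Der (C : Cpx A) (p : ℕ) (e : ℤ) (D : A →+ A) : Prop where
  mem : ∀ s N, ∀ f ∈ C.K s N, D f ∈ C.K s (N - e)
  comm : ∀ s N, ∀ f ∈ C.K s N, D (C.d s f) = C.d s (D f)
  pow : ∀ s N, ∀ f ∈ C.K s N, D^[p] f = 0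
  ex1 : ∀ s N, ∀ f ∈ C.K s N, D^[p - 1] f = 0 → ∃ g ∈ C.K s (N + e), D g = f
  ex2 : ∀ s N, ∀ f ∈ C.K s N, D f = 0 → ∃ g ∈ C.K s (N + (p - 1 : ℤ) * e), D^[p - 1] g = f

/-- The kernel of `D`. -/
def Ker (C : Cpx A) {p : ℕ} {e : ℤ} {D : A →+ A} (h : Der C p e D) : Cpx A where
  K s N := C.K s N ⊓ D.ker
  d := C.d
  d_mem s N f hf := ⟨C.d_mem _ _ _ hf.1, by
    have h2 : D f = 0 := hf.2
    change D (C.d s f) = 0
    rw [h.comm _ _ _ hf.1, h2, map_zero]⟩
  d_d s N f hf := C.d_d _ _ _ hf.1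

theorem mem_ker {p : ℕ} {e : ℤ} {D : A →+ A} (h : Der C p e D) {s N} {f : A} :
    f ∈ (C.Ker h).K s N ↔ f ∈ C.K s N ∧ D f = 0 := Iff.rfl

section Der

variable {p : ℕ} {e : ℤ} {D : A →+ A} (h : Der C p e D)
include h

theorem Der.iter_mem (k : ℕ) {s N} {f : A} (hf : f ∈ C.K s N) :
    D^[k] f ∈ C.K s (N - k * e) := by
  induction k with
  | zero => simpa using hf
  | succ k ih =>
    rw [Function.iterate_succ_apply']
    have := h.mem _ _ _ ih
    rwa [sub_sub, show (k : ℤ) * e + e = ((k + 1 : ℕ) : ℤ) * e by push_cast; ring] at this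

theorem Der.iter_comm (k : ℕ) {s N} {f : A} (hf : f ∈ C.K s N) :
    D^[k] (C.d s f) = C.d s (D^[k] f) := by
  induction k with
  | zero => rfl
  | succ k ih =>
    rw [Function.iterate_succ_apply', Function.iterate_succ_apply', ih,
      h.comm _ _ _ (h.iter_mem k hf)]

omit h in
theorem iter_sub (D : A →+ A) (k : ℕ) (f g : A) : D^[k] (f - g) = D^[k] f - D^[k] g := by
  induction k with
  | zero => rfl
  | succ k ih => simp only [Function.iterate_succ_apply', ih, map_sub]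

omit h in
theorem iter_pred (D : A →+ A) (hp : 1 ≤ p) (f : A) : D (D^[p - 1] f) = D^[p] f := by
  obtain ⟨q, rfl⟩ : ∃ q, p = q + 1 := ⟨p - 1, by omega⟩
  rw [Function.iterate_succ_apply', Nat.add_sub_cancel]

omit h in
theorem iter_pred' (D : A →+ A) (hp : 1 ≤ p) (f : A) : D^[p - 1] (D f) = D^[p] f := by
  obtain ⟨q, rfl⟩ : ∃ q, p = q + 1 := ⟨p - 1, by omega⟩
  rw [Function.iterate_succ_apply, Nat.add_sub_cancel]

/-- The kernel of `D ^ (p - 1)` is exact. -/
theorem Der.exW (hp : 1 ≤ p) {s N} (h1 : C.Ex s N)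
    (h2 : ∀ s', s = s' + 1 → (C.Ker h).Ex s' (N - (p - 1 : ℤ) * e))
    {f : A} (hf : C.Z s N f) (hf' : D^[p - 1] f = 0) :
    f = 0 ∨ ∃ s', s = s' + 1 ∧ ∃ g ∈ C.K s' N, D^[p - 1] g = 0 ∧ C.d s' g = f := by
  have hpe : ((p - 1 : ℕ) : ℤ) = (p - 1 : ℤ) := by push_cast [Nat.cast_sub hp]; ring
  have hb := h1 f hf
  cases s with
  | zero => exact Or.inl hb
  | succ s =>
    right
    obtain ⟨g, hg, rfl⟩ := hb
    refine ⟨s, rfl, ?_⟩
    have hm := h.iter_mem (p - 1) hg
    rw [hpe] at hm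
    have hz : (C.Ker h).Z s (N - (p - 1 : ℤ) * e) (D^[p - 1] g) := by
      refine ⟨⟨hm, ?_⟩, ?_⟩
      · change D (D^[p - 1] g) = 0
        rw [iter_pred D hp]
        exact h.pow _ _ _ hg
      · change C.d s _ = 0
        rw [← h.iter_comm _ hg, hf']
    have hb := h2 s rfl _ hz
    cases s with
    | zero => exact ⟨g, hg, hb, rfl⟩
    | succ s =>
      obtain ⟨r, hr, hr'⟩ := hb
      obtain ⟨r', hr1, hr2⟩ := h.ex2 _ _ _ hr.1 hr.2
      rw [sub_add_cancel] at hr1
      refine ⟨g - C.d s r', sub_mem hg (C.d_mem _ _ _ hr1), ?_, ?_⟩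
      · change C.d s r = _ at hr'
        rw [iter_sub, h.iter_comm _ hr1, hr2, hr', sub_self]
      · rw [map_sub, C.d_d _ _ _ hr1, sub_zero]

theorem Der.tower_step (hp : 1 ≤ p) {s N} (h1 : C.Ex s N)
    (h2 : ∀ s', s = s' + 1 → C.Ex s' (N - e))
    (h3 : ∀ s', s = s' + 2 → (C.Ker h).Ex s' (N - p * e)) : (C.Ker h).Ex s N := by
  intro f hf
  have hfK : f ∈ C.K s N := hf.1.1
  have hfD : D f = 0 := hf.1.2
  have hfd : C.d s f = 0 := hf.2
  have hb := h1 f ⟨hfK, hfd⟩
  cases s with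
  | zero => exact hb
  | succ s =>
    obtain ⟨g, hg, rfl⟩ := hb
    have hz : C.Z s (N - e) (D g) := ⟨h.mem _ _ _ hg, by rw [← h.comm _ _ _ hg, hfD]⟩
    have hw : D^[p - 1] (D g) = 0 := by
      rw [iter_pred' D hp]
      exact h.pow _ _ _ hg
    rcases h.exW hp (h2 s rfl) (fun s' hs' => by
        subst hs'
        have := h3 s' rfl
        rwa [show N - e - (p - 1 : ℤ) * e = N - p * e by ring]) hz hw with
      h0 | ⟨s', hs', k, hk1, hk2, hk3⟩
    · exact ⟨g, ⟨hg, h0⟩, rfl⟩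
    · subst hs'
      obtain ⟨g', hg1, hg2⟩ := h.ex1 _ _ _ hk1 hk2
      rw [sub_add_cancel] at hg1
      refine ⟨g - C.d s' g', (mem_ker h).2 ⟨sub_mem hg (C.d_mem _ _ _ hg1), ?_⟩, ?_⟩
      · rw [map_sub, h.comm _ _ _ hg1, hg2, hk3, sub_self]
      · change C.d (s' + 1) _ = _
        rw [map_sub, C.d_d _ _ _ hg1, sub_zero]

/-- The tower lemma. -/
theorem Der.tower (hp : 1 ≤ p) : ∀ s N, (∀ s' ε j : ℕ, ε ≤ 1 → s = s' + ε + 2 * j →
    C.Ex s' (N - (ε + p * j) * e)) → (C.Ker h).Ex s N := by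
  intro s
  induction s using Nat.strong_induction_on with
  | _ s ih =>
    intro N H
    refine h.tower_step hp ?_ ?_ ?_
    · have := H s 0 0 (by omega) (by omega)
      simpa using this
    · intro s' hs'
      have := H s' 1 0 (by omega) (by omega)
      simpa using this
    · intro s' hs'
      refine ih s' (by omega) _ ?_
      intro s'' ε j hε hs''
      have := H s'' ε (j + 1) hε (by omega)
      rwa [show N - ((ε : ℤ) + p * ((j + 1 : ℕ) : ℤ)) * e = N - p * e - ((ε : ℤ) + p * j) * e by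
        push_cast; ring] at this

/-- Periodicity: `β` on the kernel of `D` is the composite of the two connecting homomorphisms. -/
theorem Der.cone_ker (hp : 1 ≤ p) {n : ℤ} (hn : n = p * e) {β : A →+ A}
    (hβ : Op (C.Ker h) n β)
    (H : ∀ s N z, (C.Ker h).Z s N z → ∃ g ∈ C.K s (N + (p - 1 : ℤ) * e),
      ∃ u ∈ C.K (s + 1) (N + n), D^[p - 1] g = z ∧ D u = C.d s g ∧ C.d (s + 1) u = β z)
    {s N} (h1 : C.Ex s N) (h2 : ∀ s', s = s' + 1 → C.Ex s' (N - e)) :
    ((C.Ker h).Cone hβ).Ex s N := by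
  intro x hx
  obtain ⟨f, g⟩ := x
  obtain ⟨hx1, hx2⟩ := hx
  rw [cone_d, Prod.mk_eq_zero] at hx2
  simp only at hx2
  obtain ⟨hx2, hx3⟩ := hx2
  cases s with
  | zero =>
    rw [mem_cone_zero] at hx1
    obtain ⟨hf, hg⟩ := hx1
    simp only at hf hg
    subst hg
    have : C.B 0 N f := h1 f ⟨hf.1, by
      rw [map_zero, add_zero] at hx2
      exact hx2⟩
    simp only [B] at this
    subst this
    rfl
  | succ s =>
    rw [mem_cone_succ] at hx1
    obtain ⟨hf, hg⟩ := hx1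
    simp only at hf hg
    rw [Nat.add_sub_cancel, neg_eq_zero] at hx3
    change C.d (s + 1) f + β g = 0 at hx2
    change C.d s g = 0 at hx3
    have hne : N - n + (p - 1 : ℤ) * e = N - e := by rw [hn]; ring
    obtain ⟨g1, hg1, u, hu, hg2, hu2, hu3⟩ := H s (N - n) g ⟨hg, hx3⟩
    rw [sub_add_cancel] at hu
    rw [hne] at hg1
    -- `g` is a coboundary
    have hfu : C.Z (s + 1) N (f + u) := ⟨add_mem hf.1 hu, by rw [map_add, hu3, hx2]⟩
    obtain ⟨v, hv, hv'⟩ := h1 _ hfu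
    have hz : C.Z s (N - e) (g1 - D v) := by
      refine ⟨sub_mem hg1 (h.mem _ _ _ hv), ?_⟩
      have hfD : D f = 0 := hf.2
      rw [map_sub, ← hu2, ← h.comm _ _ _ hv, hv', map_add, hfD, zero_add, sub_self]
    have hb := h2 s rfl _ hz
    cases s with
    | zero =>
      simp only [B] at hb
      have hg0 : g = 0 := by
        rw [← hg2, sub_eq_zero.1 hb, iter_pred' D hp]
        exact h.pow _ _ _ hv
      subst hg0
      rw [map_zero, add_zero] at hx2
      have hE : (C.Ker h).Ex 1 N := h.tower hp 1 N (by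
        intro s' ε j hε hs
        obtain rfl : j = 0 := by omega
        rcases Nat.lt_or_ge 0 s' with h0 | h0
        · obtain rfl : s' = 1 := by omega
          obtain rfl : ε = 0 := by omega
          simpa using h1
        · obtain rfl : s' = 0 := by omega
          obtain rfl : ε = 1 := by omega
          simpa using h2 0 rfl)
      obtain ⟨w, hw, hw'⟩ := hE f ⟨hf, hx2⟩
      refine ⟨(w, 0), (mem_cone_zero hβ).2 ⟨hw, rfl⟩, ?_⟩
      rw [cone_d]
      simp only [map_zero, add_zero, neg_zero, hw']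
    | succ s =>
      obtain ⟨r, hr, hr'⟩ := hb
      have hρ : D^[p - 1] r ∈ (C.Ker h).K s (N - n) := by
        refine ⟨?_, ?_⟩
        · have := h.iter_mem (p - 1) hr
          rwa [show N - e - ((p - 1 : ℕ) : ℤ) * e = N - n by
            rw [hn]; push_cast [Nat.cast_sub hp]; ring] at this
        · change D (D^[p - 1] r) = 0
          rw [iter_pred D hp]
          exact h.pow _ _ _ hr
      set ρ := D^[p - 1] r with hρdef
      have hgρ : C.d s ρ = g := by
        rw [hρdef, ← h.iter_comm _ hr, hr', iter_sub, hg2, iter_pred' D hp, h.pow _ _ _ hv, sub_zero]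
      -- `f + β ρ` is in the image of `β`
      have hβρ : β ρ ∈ (C.Ker h).K (s + 2) N := by
        have := hβ.mem _ _ _ hρ
        rwa [sub_add_cancel] at this
      have hf1 : f + β ρ ∈ (C.Ker h).K (s + 2) N := add_mem hf hβρ
      have hd1 : C.d (s + 2) (f + β ρ) = 0 := by
        have := hβ.comm _ _ _ hρ
        change β (C.d s ρ) = C.d (s + 2) (β ρ) at this
        rw [map_add, ← this, hgρ, hx2]
      obtain ⟨g3, hg3, hg3'⟩ := h1 _ ⟨hf1.1, hd1⟩
      have hz3 : C.Z (s + 1) (N - e) (D g3) := ⟨h.mem _ _ _ hg3, by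
        have hfD : D (f + β ρ) = 0 := hf1.2
        rw [← h.comm _ _ _ hg3, hg3', hfD]⟩
      obtain ⟨k, hk, hk'⟩ := h2 (s + 1) rfl _ hz3
      have hz4 : (C.Ker h).Z s (N - n) (D^[p - 1] k) := by
        refine ⟨⟨?_, ?_⟩, ?_⟩
        · have := h.iter_mem (p - 1) hk
          rwa [show N - e - ((p - 1 : ℕ) : ℤ) * e = N - n by
            rw [hn]; push_cast [Nat.cast_sub hp]; ring] at this
        · change D (D^[p - 1] k) = 0
          rw [iter_pred D hp]
          exact h.pow _ _ _ hk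
        · change C.d s _ = 0
          rw [← h.iter_comm _ hk, hk', iter_pred' D hp, h.pow _ _ _ hg3]
      obtain ⟨g4, hg4, u4, hu4, hg4', hu4', hu4''⟩ := H s (N - n) _ hz4
      rw [hne] at hg4
      rw [sub_add_cancel] at hu4
      obtain ⟨v1, hv1, hv1'⟩ := h.ex1 s (N - e) (k - g4) (sub_mem hk hg4) (by
        rw [iter_sub, hg4', sub_self])
      rw [sub_add_cancel] at hv1
      refine ⟨(g3 - u4 - C.d s v1, D^[p - 1] k - ρ),
        (mem_cone_succ hβ).2 ⟨(mem_ker h).2 ⟨?_, ?_⟩, ?_⟩, ?_⟩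
      · exact sub_mem (sub_mem hg3 hu4) (C.d_mem _ _ _ hv1)
      · rw [map_sub, map_sub, hu4', h.comm _ _ _ hv1, hv1', map_sub, hk']
        abel
      · exact sub_mem hz4.1 hρ
      · rw [cone_d]
        simp only [Nat.add_sub_cancel]
        change (C.d (s + 1) _ + β _, - C.d s _) = _
        rw [map_sub, map_sub, hu4'', C.d_d _ _ _ hv1, hg3', map_sub, map_sub, hgρ]
        have : C.d s (D^[p - 1] k) = 0 := hz4.2
        rw [this]
        ext
        · simp
        · simp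

/-- `D` acts on the cone of `β` -/
theorem Der.cone {n : ℤ} {β : A →+ A} (hβ : Op C n β) (hc : ∀ f, D (β f) = β (D f)) :
    Der (C.Cone hβ) p e (D.prodMap D) where
  mem s N f hf := by
    cases s with
    | zero =>
      rw [mem_cone_zero] at hf ⊢
      exact ⟨h.mem _ _ _ hf.1, by simp [hf.2]⟩
    | succ s =>
      rw [mem_cone_succ] at hf ⊢
      refine ⟨h.mem _ _ _ hf.1, ?_⟩
      have := h.mem _ _ _ hf.2
      rwa [show N - n - e = N - e - n by ring] at this
  comm s N f hf := by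
    cases s with
    | zero =>
      rw [mem_cone_zero] at hf
      obtain ⟨f, g⟩ := f
      obtain ⟨hf, hg⟩ := hf
      simp only at hf hg
      subst hg
      simp [cone_d, h.comm _ _ _ hf]
    | succ s =>
      rw [mem_cone_succ] at hf
      obtain ⟨f, g⟩ := f
      obtain ⟨hf, hg⟩ := hf
      simp only at hf hg
      simp [cone_d, h.comm _ _ _ hf, h.comm _ _ _ hg, hc]
  pow s N f hf := by
    have key : ∀ k, (D.prodMap D)^[k] f = (D^[k] f.1, D^[k] f.2) := by
      intro k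
      induction k with
      | zero => rfl
      | succ k ih => simp only [Function.iterate_succ_apply', ih]; rfl
    rw [key]
    cases s with
    | zero =>
      rw [mem_cone_zero] at hf
      rw [h.pow _ _ _ hf.1, hf.2]
      have : ∀ k, D^[k] (0 : A) = 0 := fun k => by
        induction k with
        | zero => rfl
        | succ k ih => rw [Function.iterate_succ_apply', ih, map_zero]
      rw [this]; rfl
    | succ s =>
      rw [mem_cone_succ] at hf
      rw [h.pow _ _ _ hf.1, h.pow _ _ _ hf.2]; rfl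
  ex1 s N f hf hD := by
    have key : ∀ k, (D.prodMap D)^[k] f = (D^[k] f.1, D^[k] f.2) := by
      intro k
      induction k with
      | zero => rfl
      | succ k ih => simp only [Function.iterate_succ_apply', ih]; rfl
    rw [key, Prod.mk_eq_zero] at hD
    cases s with
    | zero =>
      rw [mem_cone_zero] at hf
      obtain ⟨g, hg, hg'⟩ := h.ex1 _ _ _ hf.1 hD.1
      refine ⟨(g, 0), (mem_cone_zero hβ).2 ⟨hg, rfl⟩, ?_⟩
      ext
      · exact hg'
      · simp [hf.2]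
    | succ s =>
      rw [mem_cone_succ] at hf
      obtain ⟨g, hg, hg'⟩ := h.ex1 _ _ _ hf.1 hD.1
      obtain ⟨g1, hg1, hg1'⟩ := h.ex1 _ _ _ hf.2 hD.2
      refine ⟨(g, g1), (mem_cone_succ hβ).2 ⟨hg, ?_⟩, ?_⟩
      · rwa [show N - n + e = N + e - n by ring] at hg1
      · ext
        · exact hg'
        · exact hg1'
  ex2 s N f hf hD := by
    have key : ∀ k, ∀ f : A × A, (D.prodMap D)^[k] f = (D^[k] f.1, D^[k] f.2) := by
      intro k f
      induction k with
      | zero => rfl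
      | succ k ih => simp only [Function.iterate_succ_apply', ih]; rfl
    have hD1 : D f.1 = 0 ∧ D f.2 = 0 := ⟨congrArg Prod.fst hD, congrArg Prod.snd hD⟩
    cases s with
    | zero =>
      rw [mem_cone_zero] at hf
      obtain ⟨g, hg, hg'⟩ := h.ex2 _ _ _ hf.1 hD1.1
      refine ⟨(g, 0), (mem_cone_zero hβ).2 ⟨hg, rfl⟩, ?_⟩
      rw [key]
      ext
      · exact hg'
      · simp only [hf.2]
        have : ∀ k, D^[k] (0 : A) = 0 := fun k => by
          induction k with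
          | zero => rfl
          | succ k ih => rw [Function.iterate_succ_apply', ih, map_zero]
        exact this _
    | succ s =>
      rw [mem_cone_succ] at hf
      obtain ⟨g, hg, hg'⟩ := h.ex2 _ _ _ hf.1 hD1.1
      obtain ⟨g1, hg1, hg1'⟩ := h.ex2 _ _ _ hf.2 hD1.2
      refine ⟨(g, g1), (mem_cone_succ hβ).2 ⟨hg, ?_⟩, ?_⟩
      · rwa [show N - n + (p - 1 : ℤ) * e = N + (p - 1 : ℤ) * e - n by ring] at hg1
      · rw [key]
        ext
        · exact hg'
        · exact hg1'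

end Der

theorem Op.ker {p : ℕ} {e n : ℤ} {D β : A →+ A} (hβ : Op C n β) (h : Der C p e D)
    (hc : ∀ f, D (β f) = β (D f)) : Op (C.Ker h) n β where
  mem s N f hf := ⟨hβ.mem _ _ _ hf.1, by
    have : D f = 0 := hf.2
    change D (β f) = 0
    rw [hc, this, map_zero]⟩
  comm s N f hf := hβ.comm _ _ _ hf.1

/-- Cones of isomorphic complexes. -/
theorem Iso.cone {n : ℤ} {β : A →+ A} {β' : A' →+ A'} {ι : A →+ A'} (h : Iso C C' ι)
    (hβ : Op C n β) (hβ' : Op C' n β') (hc : ∀ f, ι (β f) = β' (ι f)) :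
    Iso (C.Cone hβ) (C'.Cone hβ') (ι.prodMap ι) := by
  refine ⟨?_, ?_, ?_, ?_⟩
  · intro s N f hf
    cases s with
    | zero =>
      rw [mem_cone_zero] at hf ⊢
      exact ⟨h.mem _ _ _ hf.1, by simp [hf.2]⟩
    | succ s =>
      rw [mem_cone_succ] at hf ⊢
      exact ⟨h.mem _ _ _ hf.1, h.mem _ _ _ hf.2⟩
  · intro s N f hf
    cases s with
    | zero =>
      rw [mem_cone_zero] at hf
      have := h.comm _ _ _ hf.1
      ext
      · change ι (C.d 0 f.1 + β f.2) = C'.d 0 (ι f.1) + β' (ι f.2)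
        rw [map_add, this, hc]
      · change ι (- C.d (0 - 1) f.2) = - C'.d (0 - 1) (ι f.2)
        rw [hf.2]; simp
    | succ s =>
      rw [mem_cone_succ] at hf
      have h3 := h.comm _ _ _ hf.1
      have h4 := h.comm _ _ _ hf.2
      ext
      · change ι (C.d (s + 1) f.1 + β f.2) = C'.d (s + 1) (ι f.1) + β' (ι f.2)
        rw [map_add, h3, hc]
      · change ι (- C.d s f.2) = - C'.d s (ι f.2)
        rw [map_neg, h4]
  · intro x y hxy
    have h3 := congrArg Prod.fst hxy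
    have h4 := congrArg Prod.snd hxy
    exact Prod.ext (h.inj h3) (h.inj h4)
  · intro s N f hf
    cases s with
    | zero =>
      rw [mem_cone_zero] at hf
      obtain ⟨g, hg, hg'⟩ := h.surj _ _ _ hf.1
      refine ⟨(g, 0), (mem_cone_zero hβ).2 ⟨hg, rfl⟩, ?_⟩
      ext
      · exact hg'
      · simp [hf.2]
    | succ s =>
      rw [mem_cone_succ] at hf
      obtain ⟨g, hg, hg'⟩ := h.surj _ _ _ hf.1
      obtain ⟨g1, hg1, hg1'⟩ := h.surj _ _ _ hf.2
      refine ⟨(g, g1), (mem_cone_succ hβ).2 ⟨hg, hg1⟩, ?_⟩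
      ext
      · exact hg'
      · exact hg1'

/-- `C'` is the kernel of a derivation of `C`, compatibly with `β`. -/
structure Step (C C' : Cpx A) (p : ℕ) (e : ℤ) (β β' : A →+ A) : Prop where
  ex : ∃ (D : A →+ A) (h : Der C p e D) (ι : A →+ A), Iso C' (C.Ker h) ι ∧
    (∀ f, D (β f) = β (D f)) ∧ ∀ f, ι (β' f) = β (ι f)

theorem Step.tower {p : ℕ} {e : ℤ} {β β' : A →+ A} {C C' : Cpx A} (h : Step C C' p e β β')
    (hp : 1 ≤ p) (s : ℕ) (N : ℤ) (H : ∀ s' ε j : ℕ, ε ≤ 1 → s = s' + ε + 2 * j →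
    C.Ex s' (N - (ε + p * j) * e)) : C'.Ex s N := by
  obtain ⟨D, hD, ι, hι, -, -⟩ := h.ex
  exact hι.ex_iff.1 (hD.tower hp s N H)

theorem Step.cone {p : ℕ} {e n : ℤ} {β β' : A →+ A} {C C' : Cpx A} (h : Step C C' p e β β')
    (hβ : Op C n β) (hβ' : Op C' n β')
    (hp : 1 ≤ p) (s : ℕ) (N : ℤ) (H : ∀ s' ε j : ℕ, ε ≤ 1 → s = s' + ε + 2 * j →
    (C.Cone hβ).Ex s' (N - (ε + p * j) * e)) : (C'.Cone hβ').Ex s N := by
  obtain ⟨D, hD, ι, hι, h1, h2⟩ := h.ex
  have hDc := hD.cone hβ h1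
  have hI : Iso (C'.Cone hβ') ((C.Cone hβ).Ker hDc) (ι.prodMap ι) := by
    refine ⟨?_, ?_, ?_, ?_⟩
    · intro s N f hf
      rw [mem_ker]
      cases s with
      | zero =>
        rw [mem_cone_zero] at hf
        have := (mem_ker hD).1 (hι.mem _ _ _ hf.1)
        refine ⟨(mem_cone_zero hβ).2 ⟨this.1, by simp [hf.2]⟩, ?_⟩
        ext
        · exact this.2
        · simp [hf.2]
      | succ s =>
        rw [mem_cone_succ] at hf
        have := (mem_ker hD).1 (hι.mem _ _ _ hf.1)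
        have h' := (mem_ker hD).1 (hι.mem _ _ _ hf.2)
        refine ⟨(mem_cone_succ hβ).2 ⟨this.1, h'.1⟩, ?_⟩
        ext
        · exact this.2
        · exact h'.2
    · intro s N f hf
      cases s with
      | zero =>
        rw [mem_cone_zero] at hf
        have := hι.comm _ _ _ hf.1
        ext
        · change ι (C'.d 0 f.1 + β' f.2) = C.d 0 (ι f.1) + β (ι f.2)
          rw [map_add, this, h2]; rfl
        · change ι (- C'.d (0 - 1) f.2) = - C.d (0 - 1) (ι f.2)
          rw [hf.2]; simp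
      | succ s =>
        rw [mem_cone_succ] at hf
        have := hι.comm _ _ _ hf.1
        have h' := hι.comm _ _ _ hf.2
        ext
        · change ι (C'.d (s + 1) f.1 + β' f.2) = C.d (s + 1) (ι f.1) + β (ι f.2)
          rw [map_add, this, h2]; rfl
        · change ι (- C'.d s f.2) = - C.d s (ι f.2)
          rw [map_neg, h']; rfl
    · intro x y hxy
      have h3 := congrArg Prod.fst hxy
      have h4 := congrArg Prod.snd hxy
      exact Prod.ext (hι.inj h3) (hι.inj h4)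
    · intro s N f hf
      rw [mem_ker] at hf
      obtain ⟨hf, hf'⟩ := hf
      have e1 : D f.1 = 0 := congrArg Prod.fst hf'
      have e2 : D f.2 = 0 := congrArg Prod.snd hf'
      cases s with
      | zero =>
        rw [mem_cone_zero] at hf
        obtain ⟨g, hg, hg'⟩ := hι.surj _ _ _ ((mem_ker hD).2 ⟨hf.1, e1⟩)
        refine ⟨(g, 0), (mem_cone_zero hβ').2 ⟨hg, rfl⟩, ?_⟩
        ext
        · exact hg'
        · simp [hf.2]
      | succ s =>
        rw [mem_cone_succ] at hf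
        obtain ⟨g, hg, hg'⟩ := hι.surj _ _ _ ((mem_ker hD).2 ⟨hf.1, e1⟩)
        obtain ⟨g1, hg1, hg1'⟩ := hι.surj _ _ _ ((mem_ker hD).2 ⟨hf.2, e2⟩)
        refine ⟨(g, g1), (mem_cone_succ hβ').2 ⟨hg, hg1⟩, ?_⟩
        ext
        · exact hg'
        · exact hg1'
  exact hI.ex_iff.1 (hDc.tower hp s N H)

end Cpx

end Vale.Agent.P257.X
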