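import Mathlib

/-! Generalities on multivariate polynomials: supports, weights, partial derivatives modulo `p` -/

namespace Vale.Agent.P257.X

open MvPolynomial Finset

section General

variable {σ τ k : Type*} [CommRing k]

theorem supported_map (φ : MvPolynomial σ k →ₐ[k] MvPolynomial τ k) {V : Set σ} {V' : Set τ}
    (h : ∀ x ∈ V, φ (X x) ∈ supported k V') {f : MvPolynomial σ k} (hf : f ∈ supported k V) :
    φ f ∈ supported k V' := by
  rw [supported_eq_adjoin_X] at hf
  induction hf using Algebra.adjoin_induction with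
  | mem x hx => obtain ⟨y, hy, rfl⟩ := hx; exact h y hy
  | algebraMap r => rw [AlgHom.commutes]; exact Subalgebra.algebraMap_mem _ _
  | add x y _ _ hx hy => rw [map_add]; exact add_mem hx hy
  | mul x y _ _ hx hy => rw [map_mul]; exact mul_mem hx hy

theorem eqOn_supported (φ ψ : MvPolynomial σ k →ₐ[k] MvPolynomial τ k) {V : Set σ}
    (h : ∀ x ∈ V, φ (X x) = ψ (X x)) {f : MvPolynomial σ k} (hf : f ∈ supported k V) :
    φ f = ψ f := by
  rw [supported_eq_adjoin_X] at hf
  induction hf using Algebra.adjoin_induction with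
  | mem x hx => obtain ⟨y, hy, rfl⟩ := hx; exact h y hy
  | algebraMap r => rw [AlgHom.commutes, AlgHom.commutes]
  | add x y _ _ hx hy => rw [map_add, map_add, hx, hy]
  | mul x y _ _ hx hy => rw [map_mul, map_mul, hx, hy]

theorem mem_supported_iff {V : Set σ} {f : MvPolynomial σ k} :
    f ∈ supported k V ↔ ∀ u ∈ f.support, ∀ x ∈ u.support, x ∈ V := by
  classical
  rw [mem_supported]
  constructor
  · intro h u hu x hx
    exact h (by rw [mem_coe, mem_vars_iff_mem_support]; exact ⟨u, hu, hx⟩)
  · intro h x hx
    rw [mem_coe, mem_vars_iff_mem_support] at hx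
    obtain ⟨u, hu, hx⟩ := hx
    exact h u hu x hx

theorem supported_sum {ι : Type*} {V : Set σ} (s : Finset ι) (g : ι → MvPolynomial σ k)
    (h : ∀ i ∈ s, g i ∈ supported k V) : ∑ i ∈ s, g i ∈ supported k V := sum_mem h

theorem monomial_mem_supported {V : Set σ} {u : σ →₀ ℕ} {c : k} (h : ∀ x ∈ u.support, x ∈ V) :
    monomial u c ∈ supported k V := by
  classical
  rw [mem_supported_iff]
  intro v hv x hx
  rw [mem_support_iff, coeff_monomial] at hv
  split_ifs at hv with h1
  · subst h1; exact h x hx
  · exact absurd rfl hv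

theorem homogeneous_map {M : Type*} [AddCommMonoid M] (φ : MvPolynomial σ k →ₐ[k] MvPolynomial τ k)
    {V : Set σ} {w : σ → M} {w' : τ → M} (h : ∀ x ∈ V, IsWeightedHomogeneous w' (φ (X x)) (w x))
    {f : MvPolynomial σ k} (hf : f ∈ supported k V) {N : M} (hN : IsWeightedHomogeneous w f N) :
    IsWeightedHomogeneous w' (φ f) N := by
  rw [mem_supported_iff] at hf
  rw [f.as_sum, map_sum]
  refine IsWeightedHomogeneous.sum _ _ _ fun u hu => ?_
  rw [monomial_eq, map_mul, Finsupp.prod, map_prod, ← algebraMap_eq, AlgHom.commutes, algebraMap_eq]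
  have h1 : Finsupp.weight w u = N := hN (mem_support_iff.1 hu)
  have h2 : IsWeightedHomogeneous w' (∏ i ∈ u.support, φ (X i ^ u i)) (∑ i ∈ u.support, u i • w i) := by
    refine IsWeightedHomogeneous.prod _ _ _ fun i hi => ?_
    rw [map_pow]
    exact (h i (hf u hu i hi)).pow _
  rw [Finsupp.weight_apply, Finsupp.sum] at h1
  rw [h1] at h2
  exact h2.C_mul _

theorem pderiv_supported {V : Set σ} (x : σ) {f : MvPolynomial σ k} (hf : f ∈ supported k V) :
    pderiv x f ∈ supported k V := by
  classical
  rw [supported_eq_adjoin_X] at hf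
  induction hf using Algebra.adjoin_induction with
  | mem y hy =>
    obtain ⟨y, hy, rfl⟩ := hy
    rw [pderiv_X]
    by_cases hxy : x = y
    · subst hxy; simp [one_mem]
    · rw [Pi.single_eq_of_ne (Ne.symm hxy)]; exact zero_mem _
  | algebraMap r => rw [algebraMap_eq, pderiv_C]; exact zero_mem _
  | add a b _ _ ha hb => rw [map_add]; exact add_mem ha hb
  | mul a b ha' hb' ha hb =>
    rw [pderiv_mul]
    exact add_mem (mul_mem ha hb') (mul_mem ha' hb)

/-- A derivation and algebra homomorphisms. -/
theorem pderiv_comm (φ : MvPolynomial σ k →ₐ[k] MvPolynomial τ k) (x : σ) (y : τ)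
    (h : ∀ z, pderiv y (φ (X z)) = φ (pderiv x (X z))) (f : MvPolynomial σ k) :
    pderiv y (φ f) = φ (pderiv x f) := by
  induction f using MvPolynomial.induction_on with
  | C a => rw [← algebraMap_eq, AlgHom.commutes, algebraMap_eq, pderiv_C, algebraMap_eq, pderiv_C,
      map_zero]
  | add f g hf hg => simp only [map_add, hf, hg]
  | mul_X f z hf => rw [map_mul, pderiv_mul, pderiv_mul, map_add, map_mul, map_mul, hf, h]

end General

section Char

variable {σ : Type*} {p : ℕ} [Fact p.Prime] (x : σ)

theorem pderiv_iter_monomial (k : ℕ) (u : σ →₀ ℕ) (c : ZMod p) :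
    (pderiv x)^[k] (monomial u c) =
      monomial (u - Finsupp.single x k) (c * ((u x).descFactorial k : ℕ)) := by
  induction k with
  | zero => simp
  | succ k ih =>
    rw [Function.iterate_succ_apply', ih, pderiv_monomial]
    congr 1
    · rw [tsub_tsub, ← Finsupp.single_add]
    · rw [Nat.descFactorial_succ, Finsupp.tsub_apply, Finsupp.single_eq_same]
      push_cast
      ring

theorem pderiv_iter_sum {ι : Type*} (k : ℕ) (s : Finset ι) (g : ι → MvPolynomial σ (ZMod p)) :
    (pderiv x)^[k] (∑ i ∈ s, g i) = ∑ i ∈ s, (pderiv x)^[k] (g i) := by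
  induction k with
  | zero => rfl
  | succ k ih => simp only [Function.iterate_succ_apply', ih, map_sum]

theorem pderiv_iter_p (f : MvPolynomial σ (ZMod p)) : (pderiv x)^[p] f = 0 := by
  rw [f.as_sum, pderiv_iter_sum]
  refine Finset.sum_eq_zero fun u _ => ?_
  rw [pderiv_iter_monomial]
  have : (((u x).descFactorial p : ℕ) : ZMod p) = 0 := by
    rw [ZMod.natCast_eq_zero_iff, Nat.descFactorial_eq_factorial_mul_choose]
    exact Dvd.dvd.mul_right (Nat.dvd_factorial (Fact.out : p.Prime).pos le_rfl) _
  rw [this, mul_zero, monomial_zero]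

/-- The coefficients of iterated derivatives. -/
theorem coeff_pderiv_iter (k : ℕ) (f : MvPolynomial σ (ZMod p)) (u : σ →₀ ℕ) (hu : k ≤ u x) :
    coeff (u - Finsupp.single x k) ((pderiv x)^[k] f) =
      coeff u f * ((u x).descFactorial k : ℕ) := by
  classical
  conv_lhs => rw [f.as_sum, pderiv_iter_sum, coeff_sum]
  have h1 : ∀ v ∈ f.support, v ≠ u → coeff (u - Finsupp.single x k)
      ((pderiv x)^[k] (monomial v (coeff v f))) = 0 := by
    intro v _ hvu
    rw [pderiv_iter_monomial, coeff_monomial]
    split_ifs with h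
    · by_cases hv : k ≤ v x
      · exfalso
        apply hvu
        ext y
        have := DFunLike.congr_fun h y
        simp only [Finsupp.tsub_apply] at this
        by_cases hy : x = y
        · subst hy
          rw [Finsupp.single_eq_same] at this
          omega
        · rw [Finsupp.single_eq_of_ne (Ne.symm hy)] at this
          omega
      · rw [Nat.descFactorial_eq_zero_iff_lt.2 (by omega)]
        simp
    · rfl
  rw [Finset.sum_eq_single u h1]
  · rw [pderiv_iter_monomial, coeff_monomial, if_pos rfl]
  · intro hu'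
    rw [notMem_support_iff] at hu'
    rw [hu', monomial_zero]
    have h0 : ∀ k, (pderiv x)^[k] (0 : MvPolynomial σ (ZMod p)) = 0 := by
      intro k
      induction k with
      | zero => rfl
      | succ k ih => rw [Function.iterate_succ_apply', ih, map_zero]
    rw [h0, coeff_zero]

theorem dvd_of_pderiv_eq_zero {f : MvPolynomial σ (ZMod p)} (hf : pderiv x f = 0)
    {u : σ →₀ ℕ} (hu : u ∈ f.support) : p ∣ u x := by
  rcases Nat.eq_zero_or_pos (u x) with h0 | h0
  · rw [h0]; exact dvd_zero _
  have h1 := coeff_pderiv_iter x 1 f u h0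
  rw [Function.iterate_one, hf, coeff_zero, Nat.descFactorial_one] at h1
  have h2 := mul_eq_zero.1 h1.symm
  rcases h2 with h2 | h2
  · exact absurd h2 (mem_support_iff.1 hu)
  · rwa [ZMod.natCast_eq_zero_iff] at h2

theorem not_dvd_of_pderiv_iter_eq_zero {f : MvPolynomial σ (ZMod p)}
    (hf : (pderiv x)^[p - 1] f = 0) {u : σ →₀ ℕ} (hu : u ∈ f.support) : ¬ p ∣ u x + 1 := by
  intro hd
  have hp := (Fact.out : p.Prime)
  have hle : p - 1 ≤ u x := by have := Nat.le_of_dvd (by omega) hd; omega
  have h1 := coeff_pderiv_iter x (p - 1) f u hle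
  rw [hf, coeff_zero] at h1
  rcases mul_eq_zero.1 h1.symm with h2 | h2
  · exact absurd h2 (mem_support_iff.1 hu)
  · rw [ZMod.natCast_eq_zero_iff, Nat.descFactorial_eq_prod_range, hp.prime.dvd_finsetProd_iff] at h2
    obtain ⟨i, hi, hi'⟩ := h2
    rw [Finset.mem_range] at hi
    have h3 : p ∣ (u x + 1) - (u x - i) := Nat.dvd_sub hd hi'
    rw [show (u x + 1) - (u x - i) = i + 1 by omega] at h3
    have := Nat.le_of_dvd (by omega) h3
    omega

/-- An antiderivative. -/
noncomputable def anti (f : MvPolynomial σ (ZMod p)) : MvPolynomial σ (ZMod p) :=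
  ∑ u ∈ f.support, monomial (u + Finsupp.single x 1) (coeff u f * ((u x + 1 : ℕ) : ZMod p)⁻¹)

theorem pderiv_anti {f : MvPolynomial σ (ZMod p)} (hf : (pderiv x)^[p - 1] f = 0) :
    pderiv x (anti x f) = f := by
  rw [anti, map_sum]
  conv_rhs => rw [f.as_sum]
  refine Finset.sum_congr rfl fun u hu => ?_
  rw [pderiv_monomial, add_tsub_cancel_right]
  congr 1
  have : ((u x + 1 : ℕ) : ZMod p) ≠ 0 := by
    rw [Ne, ZMod.natCast_eq_zero_iff]
    exact not_dvd_of_pderiv_iter_eq_zero x hf hu
  rw [Finsupp.add_apply, Finsupp.single_eq_same, mul_assoc, inv_mul_cancel₀ this, mul_one]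

theorem anti_supported {V : Set σ} (hx : x ∈ V) {f : MvPolynomial σ (ZMod p)}
    (hf : f ∈ supported (ZMod p) V) : anti x f ∈ supported (ZMod p) V := by
  classical
  rw [mem_supported_iff] at hf
  refine supported_sum _ _ fun u hu => monomial_mem_supported fun y hy => ?_
  have := Finsupp.support_add hy
  rw [Finset.mem_union] at this
  rcases this with h | h
  · exact hf u hu y h
  · have := Finsupp.support_single_subset h
    rw [Finset.mem_singleton] at this
    rw [this]; exact hx

theorem anti_homogeneous {M : Type*} [AddCommMonoid M] {w : σ → M} {N : M}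
    {f : MvPolynomial σ (ZMod p)} (hf : IsWeightedHomogeneous w f N) :
    IsWeightedHomogeneous w (anti x f) (N + w x) := by
  refine IsWeightedHomogeneous.sum _ _ _ fun u hu => ?_
  refine isWeightedHomogeneous_monomial _ _ _ ?_
  rw [map_add, hf (mem_support_iff.1 hu), Finsupp.weight_apply, Finsupp.sum_single_index]
  · rw [one_smul]
  · rw [zero_smul]

theorem pderiv_iter_mul_pow {f : MvPolynomial σ (ZMod p)} (hf : pderiv x f = 0) (k : ℕ) :
    (pderiv x)^[k] (X x ^ k * f) = C ((k.factorial : ℕ) : ZMod p) * f := by
  induction k with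
  | zero => simp
  | succ k ih =>
    rw [Function.iterate_succ_apply, pderiv_mul, hf, mul_zero, add_zero, pderiv_pow, pderiv_X_self,
      mul_one, Nat.add_sub_cancel, Nat.factorial_succ]
    have h1 : ((k + 1 : ℕ) : MvPolynomial σ (ZMod p)) * X x ^ k * f =
        C ((k + 1 : ℕ) : ZMod p) * (X x ^ k * f) := by
      rw [map_natCast, mul_assoc]
    rw [h1]
    have h2 : ∀ (j : ℕ) (c : ZMod p) (g : MvPolynomial σ (ZMod p)),
        (pderiv x)^[j] (C c * g) = C c * (pderiv x)^[j] g := by
      intro j c g
      induction j with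
      | zero => rfl
      | succ j ih' => rw [Function.iterate_succ_apply', ih', pderiv_C_mul,
          Function.iterate_succ_apply']
    rw [h2, ih, ← mul_assoc, ← C_mul]
    push_cast
    ring_nf

/-- The substitution `X x ↦ X x ^ p`. -/
noncomputable def frob [DecidableEq σ] : MvPolynomial σ (ZMod p) →ₐ[ZMod p] MvPolynomial σ (ZMod p) :=
  aeval fun y => if y = x then X x ^ p else X y

variable [DecidableEq σ]

theorem frob_X (y : σ) : frob (p := p) x (X y) = if y = x then X x ^ p else X y := aeval_X _ _

theorem frob_monomial (u : σ →₀ ℕ) (c : ZMod p) :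
    frob x (monomial u c) = monomial (u.update x (p * u x)) c := by
  have h1 : ∀ y ∈ insert x u.support, y ∉ u.support →
      (if y = x then (X x : MvPolynomial σ (ZMod p)) ^ p else X y) ^ u y = 1 := by
    intro y _ hy
    rw [Finsupp.notMem_support_iff] at hy
    rw [hy, pow_zero]
  have h2 : ∀ y ∈ insert x u.support, y ∉ (u.update x (p * u x)).support →
      (X y : MvPolynomial σ (ZMod p)) ^ (u.update x (p * u x)) y = 1 := by
    intro y _ hy
    rw [Finsupp.notMem_support_iff] at hy
    rw [hy, pow_zero]
  have h3 : (u.update x (p * u x)).support ⊆ insert x u.support := by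
    intro y hy
    rw [Finset.mem_insert]
    by_cases hyx : y = x
    · exact Or.inl hyx
    · right
      rw [Finsupp.mem_support_iff, Finsupp.coe_update, Function.update_of_ne hyx] at hy
      rwa [Finsupp.mem_support_iff]
  have h4 : ∀ y, (if y = x then (X x : MvPolynomial σ (ZMod p)) ^ p else X y) ^ u y =
      X y ^ (u.update x (p * u x)) y := by
    intro y
    by_cases hyx : y = x
    · subst hyx
      rw [if_pos rfl, Finsupp.coe_update, Function.update_self, pow_mul]
    · rw [if_neg hyx, Finsupp.coe_update, Function.update_of_ne hyx]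
  rw [frob, aeval_monomial, monomial_eq (s := u.update x (p * u x)), algebraMap_eq]
  congr 1
  rw [Finsupp.prod, Finsupp.prod, Finset.prod_subset (Finset.subset_insert x u.support) h1,
    Finset.prod_subset h3 h2]
  exact Finset.prod_congr rfl fun y _ => h4 y

theorem update_inj {u v : σ →₀ ℕ} (h : u.update x (p * u x) = v.update x (p * v x)) : u = v := by
  ext y
  have := DFunLike.congr_fun h y
  rw [Finsupp.coe_update, Finsupp.coe_update] at this
  by_cases hy : y = x
  · subst hy
    rw [Function.update_self, Function.update_self] at this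
    exact Nat.eq_of_mul_eq_mul_left (Fact.out : p.Prime).pos this
  · rwa [Function.update_of_ne hy, Function.update_of_ne hy] at this

theorem coeff_frob (f : MvPolynomial σ (ZMod p)) (u : σ →₀ ℕ) :
    coeff (u.update x (p * u x)) (frob x f) = coeff u f := by
  conv_lhs => rw [f.as_sum, map_sum, coeff_sum]
  rw [Finset.sum_eq_single u]
  · rw [frob_monomial, coeff_monomial, if_pos rfl]
  · intro v _ hv
    rw [frob_monomial, coeff_monomial, if_neg fun h => hv (update_inj x h)]
  · intro hu
    rw [notMem_support_iff] at hu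
    rw [hu, monomial_zero, map_zero, coeff_zero]

theorem frob_injective : Function.Injective (frob (p := p) x) := by
  intro f g h
  ext u
  rw [← coeff_frob x f, ← coeff_frob x g, h]

/-- A preimage under `frob`. -/
noncomputable def unfrob (f : MvPolynomial σ (ZMod p)) : MvPolynomial σ (ZMod p) :=
  ∑ u ∈ f.support, monomial (u.update x (u x / p)) (coeff u f)

theorem frob_unfrob {f : MvPolynomial σ (ZMod p)} (hf : pderiv x f = 0) :
    frob x (unfrob x f) = f := by
  rw [unfrob, map_sum]
  conv_rhs => rw [f.as_sum]
  refine Finset.sum_congr rfl fun u hu => ?_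
  rw [frob_monomial]
  have : (u.update x (u x / p)).update x (p * (u.update x (u x / p)) x) = u := by
    ext y
    rw [Finsupp.coe_update, Finsupp.coe_update, Function.update_self]
    by_cases hy : y = x
    · subst hy
      rw [Function.update_self, Nat.mul_div_cancel' (dvd_of_pderiv_eq_zero y hf hu)]
    · rw [Function.update_of_ne hy, Function.update_of_ne hy]
  rw [this]

theorem unfrob_supported {V : Set σ} {f : MvPolynomial σ (ZMod p)}
    (hf : f ∈ supported (ZMod p) V) : unfrob x f ∈ supported (ZMod p) V := by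
  rw [mem_supported_iff] at hf
  refine supported_sum _ _ fun u hu => monomial_mem_supported fun y hy => hf u hu y ?_
  rw [Finsupp.mem_support_iff] at hy ⊢
  rw [Finsupp.coe_update] at hy
  by_cases h : y = x
  · subst h
    rw [Function.update_self] at hy
    intro h0
    rw [h0, Nat.zero_div] at hy
    exact hy rfl
  · rwa [Function.update_of_ne h] at hy

theorem unfrob_homogeneous {w w' : σ → ℤ} (hx : w' x = p * w x) (h : ∀ y, y ≠ x → w' y = w y)
    {N : ℤ} {f : MvPolynomial σ (ZMod p)} (hf : IsWeightedHomogeneous w f N)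
    (hf' : pderiv x f = 0) : IsWeightedHomogeneous w' (unfrob x f) N := by
  refine IsWeightedHomogeneous.sum _ _ _ fun u hu => ?_
  refine isWeightedHomogeneous_monomial _ _ _ ?_
  rw [← hf (mem_support_iff.1 hu), Finsupp.weight_apply, Finsupp.weight_apply,
    Finsupp.sum_of_support_subset (s := insert x u.support) _ _ _ (by simp),
    Finsupp.sum_of_support_subset (s := insert x u.support) _ (Finset.subset_insert _ _) _ (by simp)]
  · refine Finset.sum_congr rfl fun y _ => ?_
    rw [Finsupp.coe_update]
    by_cases hy : y = x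
    · subst hy
      rw [Function.update_self, hx]
      obtain ⟨c, hc⟩ := dvd_of_pderiv_eq_zero y hf' hu
      rw [hc, Nat.mul_div_cancel_left _ (Fact.out : p.Prime).pos]
      push_cast [nsmul_eq_mul]
      ring
    · rw [Function.update_of_ne hy, h y hy]
  · intro y hy
    rw [Finset.mem_insert]
    by_cases hyx : y = x
    · exact Or.inl hyx
    · right
      rw [Finsupp.mem_support_iff, Finsupp.coe_update, Function.update_of_ne hyx] at hy
      rwa [Finsupp.mem_support_iff]

end Char

end Vale.Agent.P257.X
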