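import Vale.Agent.P257.N.Basic

/-! The interface between the tower of comodules, the counting of monomials and `PFacts`. -/

namespace Vale.Agent.P257.X

open MvPolynomial Finset
open Vale.Agent.P257.Q.PC Vale.Agent.P257.N

/-- There is no monomial of degree `(s, N)`. -/
def NM (p s N : ℕ) : Prop := ∀ L : List (ℕ × ℕ), L.Nodup → ¬ Mon p L s N

/-- There is no monomial of degree `(s, N)` which does not involve `h_x, b_x`. -/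
def NM' (p : ℕ) (x : ℕ × ℕ) (s N : ℕ) : Prop :=
  ∀ L : List (ℕ × ℕ), L.Nodup → x ∉ L → ¬ Mon p L s N

/-- Left multiplication by `b_(1,1)`. -/
noncomputable def mulc (p : ℕ) (x : KP p) : KP p := b10 p ^ p * sh p (sh p x)

/-- `f`, of degree `(2, n)`, is a map of complexes. -/
structure IsOp (p n : ℕ) (f : KP p → KP p) : Prop where
  sub : ∀ x y, f (x - y) = f x - f y
  Z : ∀ s N, ∀ z ∈ Zc p s N, f z ∈ Zc p (s + 2) (N + n)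
  B : ∀ s N, ∀ z ∈ Bc p s N, f z ∈ Bc p (s + 2) (N + n)

/-- What the tower gives. -/
structure TowerOut (p : ℕ) : Prop where
  van : ∀ s N, NM p s N → Van p s N
  opb : IsOp p p (mulb p)
  epib : ∀ s N, NM' p (0, 0) (s + 2) (N + p) → NM' p (0, 0) (s + 1) (N + p - 1) →
    ∀ y ∈ Zc p (s + 2) (N + p), ∃ z ∈ Zc p s N, y - mulb p z ∈ Bc p (s + 2) (N + p)
  monob : ∀ s N, NM' p (0, 0) (s + 1) (N + p) → NM' p (0, 0) s (N + p - 1) →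
    ∀ z ∈ Zc p s N, mulb p z ∈ Bc p (s + 2) (N + p) → z ∈ Bc p s N
  opc : IsOp p (p ^ 2) (mulc p)
  epic : ∀ s N, NM' p (0, 1) (s + 2) (N + p ^ 2) → NM' p (0, 1) (s + 1) (N + p ^ 2 - p) →
    ∀ y ∈ Zc p (s + 2) (N + p ^ 2), ∃ z ∈ Zc p s N, y - mulc p z ∈ Bc p (s + 2) (N + p ^ 2)

/-- The numerical facts. -/
structure Num (p : ℕ) : Prop where
  V : ∀ s N, 2 * N + p < p * s → NM p s N
  G3 : ∀ k, 3 ≤ k → k ≠ p - 1 → k ≠ p → NM p (k * (2 * (p - 1)) + 1) (ee p + k)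
  G5 : ∀ k, 1 ≤ k → NM p (k * (2 * (p - 1)) + 6) (1 + 4 * p + 2 * p ^ 2 + k)
  G6 : ∀ j, 3 ≤ j → j ≤ p - 2 → NM p (j * (2 * (p - 1)) + 6) (ee p + 3 * p + j)
  /-- `k = 2`, `b_(1,0)` -/
  E2a : ∀ j, 1 ≤ j → j ≤ p - 2 → NM' p (0, 0) (2 * p + 1 + 2 * j) (3 + 3 * p + p ^ 3 + j * p) ∧
    NM' p (0, 0) (2 * p + 2 * j) (3 + 3 * p + p ^ 3 + j * p - 1)
  /-- `k = 2`, `b_(1,1)` -/
  E2b : ∀ j, 1 ≤ j → j ≤ p - 2 → NM' p (0, 1) (5 + 2 * j) (3 + 3 * p + 2 * p ^ 2 + j * p ^ 2) ∧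
    NM' p (0, 1) (4 + 2 * j) (3 + 3 * p + 2 * p ^ 2 + j * p ^ 2 - p)
  /-- `k = p - 1` -/
  E3 : ∀ j, 1 ≤ j → j ≤ p ^ 2 - 2 * p - 2 → NM' p (0, 0) (7 + 2 * j) (4 * p + 3 * p ^ 2 + j * p) ∧
    NM' p (0, 0) (6 + 2 * j) (4 * p + 3 * p ^ 2 + j * p - 1)
  /-- `k = p` -/
  E4 : ∀ j, 1 ≤ j → j ≤ p ^ 2 - p - 2 → NM' p (0, 0) (5 + 2 * j) (1 + 4 * p + 2 * p ^ 2 + j * p) ∧
    NM' p (0, 0) (4 + 2 * j) (1 + 4 * p + 2 * p ^ 2 + j * p - 1)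
  /-- the sources with `j = p - 1` -/
  E6 : ∀ j, 1 ≤ j → j ≤ (p - 1) ^ 2 → NM' p (0, 0) (6 + 2 * j) (4 * p + 3 * p ^ 2 + j * p) ∧
    NM' p (0, 0) (5 + 2 * j) (4 * p + 3 * p ^ 2 + j * p - 1)
  /-- the sources with `j = 2` -/
  E6' : ∀ j, 1 ≤ j → j ≤ 3 →
    NM' p (0, 0) (2 * (2 * (p - 1)) + 2 * j) (ee p + 2 + j * p) ∧
    NM' p (0, 0) (2 * (2 * (p - 1)) + 2 * j - 1) (ee p + 2 + j * p - 1)
  /-- injectivity of `b_(1,0) ^ 3` -/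
  M7 : ∀ j, j ≤ 2 → NM' p (0, 0) (p * (2 * (p - 1)) + 2 + 2 * j) (ee p + (j + 2) * p) ∧
    NM' p (0, 0) (p * (2 * (p - 1)) + 1 + 2 * j) (ee p + (j + 2) * p - 1)

/-- The four small groups. -/
structure Small (p : ℕ) : Prop where
  S1 : Van p 5 (3 + 3 * p + 2 * p ^ 2)
  S2 : Van p 7 (4 * p + 3 * p ^ 2)
  S2' : Van p 6 (4 * p + 3 * p ^ 2)
  S3 : Van p 6 (2 + 4 * p + 2 * p ^ 2)

/-- The field `G2` of `PFacts`. -/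
def G2 (p : ℕ) : Prop := ∀ z ∈ Zc p (2 * p - 1) (ee p + 1),
  X (0, 0) ^ p ^ 4 * sh p z ∈ Bc p (2 * p) (ee p + 1 + p ^ 4) → z ∈ Bc p (2 * p - 1) (ee p + 1)

end Vale.Agent.P257.X
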