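import Vale.Agent.P257.X.Cone

/-! The bridge to the cobar complex of `Q.PDefs`, and `TowerOut` -/

namespace Vale.Agent.P257.X

open MvPolynomial Finset Vale.Agent.P257.Q.PC

variable {p : ℕ}

theorem hom_cast {x : KP p} {N : ℕ} :
    IsWeightedHomogeneous (fun i : ℕ × ℕ => (wt p i.2 : ℤ)) x (N : ℤ) ↔
      IsWeightedHomogeneous (fun i : ℕ × ℕ => wt p i.2) x N := by
  have h : ∀ u : ℕ × ℕ →₀ ℕ, Finsupp.weight (fun i : ℕ × ℕ => (wt p i.2 : ℤ)) u =
      ((Finsupp.weight (fun i : ℕ × ℕ => wt p i.2) u : ℕ) : ℤ) := by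
    intro u
    rw [Finsupp.weight_apply, Finsupp.weight_apply, Finsupp.sum, Finsupp.sum]
    push_cast
    simp
  constructor
  · intro h1 u hu
    have := h1 hu
    rw [h] at this
    exact_mod_cast this
  · intro h1 u hu
    rw [h, h1 hu]

theorem mem_Ch {s N : ℕ} {x : KP p} : x ∈ Ch p s N ↔
    IsWeightedHomogeneous (fun i : ℕ × ℕ => wt p i.2) x N ∧
      x ∈ supported (ZMod p) {i : ℕ × ℕ | i.1 < s} := by
  constructor
  · intro h
    have h1 : Ch p s N ≤ weightedHomogeneousSubmodule (ZMod p) (fun i : ℕ × ℕ => wt p i.2) N ⊓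
        Subalgebra.toSubmodule (supported (ZMod p) {i : ℕ × ℕ | i.1 < s}) := by
      rw [Ch, Submodule.span_le]
      rintro _ ⟨e, h1, h2, rfl⟩
      refine ⟨?_, monomial_mem_supported h1⟩
      refine isWeightedHomogeneous_monomial _ _ _ ?_
      rw [Finsupp.weight_apply, ← h2]
      rfl
    exact h1 h
  · rintro ⟨h1, h2⟩
    rw [mem_supported_iff] at h2
    rw [x.as_sum]
    refine sum_mem fun u hu => ?_
    have h3 : monomial u (coeff u x) = coeff u x • (monomial u 1 : KP p) := by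
      rw [smul_monomial, smul_eq_mul, mul_one]
    rw [h3]
    refine Submodule.smul_mem _ _ (Submodule.subset_span ⟨u, h2 u hu, ?_, rfl⟩)
    have h4 := h1 (mem_support_iff.1 hu)
    rw [Finsupp.weight_apply] at h4
    rw [← h4]
    rfl

theorem sh_X (x : ℕ × ℕ) : sh p (X x) = X (x.1 + 1, x.2) := rename_X _ _

theorem eta_sh (x : KP p) : eta p (sh p x) = x := by
  have : (eta p).comp (sh p) = AlgHom.id _ _ := by
    refine MvPolynomial.algHom_ext fun y => ?_
    rw [AlgHom.comp_apply, sh_X, eta_X, if_neg (by dsimp only; omega)]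
    rfl
  exact DFunLike.congr_fun this x

theorem sh_injective : Function.Injective (sh p) :=
  Function.LeftInverse.injective (eta_sh (p := p))

variable [Fact p.Prime]

/-- No variables of the block `0` occur in degrees `< p ^ B`. -/
theorem supp_B {m s B : ℕ} {I : ℕ → ℕ} (hB : ∀ n < m, B ≤ I n) {N : ℤ} (hN : N < p ^ B)
    {f : KP p} (hf : f ∈ KK p m I s N) : f ∈ supported (ZMod p) {x | x.1 ≠ 0 ∧ x.1 ≤ s} := by
  rw [mem_supported_iff]
  intro u hu x hx
  have h1 := mem_supported_iff.1 hf.2 u hu x hx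
  refine ⟨fun h0 => ?_, h1.1⟩
  have h2 := w_le hf.1 hu hx
  rw [w, if_pos h0] at h2
  have h3 := hB x.2 (h1.2 h0)
  have h4 : (p : ℤ) ^ B ≤ (p : ℤ) ^ I x.2 := by
    have := Nat.pow_le_pow_right (Fact.out : p.Prime).pos h3
    exact_mod_cast this
  have h5 : (1 : ℤ) ≤ wt p x.2 := by exact_mod_cast wt_pos (p := p) x.2
  have h6 : (0 : ℤ) ≤ (p : ℤ) ^ I x.2 := by positivity
  nlinarith

theorem sh_mem {m s N : ℕ} {I : ℕ → ℕ} {x : KP p} (hx : x ∈ Ch p s N) :
    sh p x ∈ KK p m I s N := by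
  rw [mem_Ch] at hx
  refine ⟨homogeneous_map (sh p) (fun y _ => ?_) hx.2 (hom_cast.2 hx.1),
    supported_map (sh p) (fun y hy => ?_) hx.2⟩
  · rw [sh_X]
    have := isWeightedHomogeneous_X (ZMod p) (w p I) (y.1 + 1, y.2)
    rwa [w, if_neg (by dsimp only; omega)] at this
  · rw [sh_X]
    exact X_mem ⟨hy, fun h => absurd h (by dsimp only; omega)⟩

theorem sh_eta {m s B : ℕ} {I : ℕ → ℕ} (hB : ∀ n < m, B ≤ I n) {N : ℤ} (hN : N < p ^ B)
    {f : KP p} (hf : f ∈ KK p m I s N) : sh p (eta p f) = f := by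
  refine eqOn_supported ((sh p).comp (eta p)) (AlgHom.id _ _) (fun x hx => ?_) (supp_B hB hN hf)
  rw [AlgHom.comp_apply, eta_X, if_neg hx.1, sh_X]
  have : (x.1 - 1 + 1, x.2) = x := by
    have := hx.1
    ext <;> dsimp only
    omega
  rw [this]
  rfl

theorem eta_mem {m s B N : ℕ} {I : ℕ → ℕ} (hB : ∀ n < m, B ≤ I n) (hN : N < p ^ B)
    {f : KP p} (hf : f ∈ KK p m I s N) : eta p f ∈ Ch p s N := by
  have hN' : (N : ℤ) < p ^ B := by exact_mod_cast hN
  rw [mem_Ch, ← hom_cast]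
  refine ⟨homogeneous_map (eta p) (fun y hy => ?_) (supp_B hB hN' hf) hf.1,
    supported_map (eta p) (fun y hy => ?_) (supp_B hB hN' hf)⟩
  · rw [eta_X, if_neg hy.1, w, if_neg hy.1]
    exact isWeightedHomogeneous_X (ZMod p) (fun i : ℕ × ℕ => (wt p i.2 : ℤ)) (y.1 - 1, y.2)
  · rw [eta_X, if_neg hy.1]
    exact X_mem (show y.1 - 1 < s by have := hy.1; have := hy.2; omega)

theorem sh_K {m s B N : ℕ} {I : ℕ → ℕ} (hB : ∀ n < m, B ≤ I n) (hN : N < p ^ B) {x : KP p} :
    sh p x ∈ KK p m I s N ↔ x ∈ Ch p s N := by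
  constructor
  · intro h
    have := eta_mem hB hN h
    rwa [eta_sh] at this
  · exact sh_mem

omit [Fact p.Prime] in
theorem ph_sh_zero (m : ℕ) (I : ℕ → ℕ) (x : KP p) : ph p m I 0 (sh p x) = sh p (sh p x) := by
  have : (ph p m I 0).comp (sh p) = (sh p).comp (sh p) := by
    refine MvPolynomial.algHom_ext fun y => ?_
    rw [AlgHom.comp_apply, AlgHom.comp_apply, sh_X, sh_X, ph_zero_X, if_neg (by dsimp only; omega)]
  exact DFunLike.congr_fun this x

omit [Fact p.Prime] in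
theorem ph_sh_succ (m : ℕ) (I : ℕ → ℕ) (i : ℕ) (x : KP p) :
    ph p m I (i + 1) (sh p x) = sh p (δ p i x) := by
  have : (ph p m I (i + 1)).comp (sh p) = (sh p).comp (δ p i) := by
    refine MvPolynomial.algHom_ext fun y => ?_
    obtain ⟨l, n⟩ := y
    have hX : (X (l, n) : KP p) = tt p l (n + 1) := (if_neg (by omega)).symm
    rw [AlgHom.comp_apply, AlgHom.comp_apply, hX, sh_tt, ph_succ]
    rcases lt_trichotomy l i with h | h | h
    · rw [δ_tt_lt (by omega), δ_tt_lt h, sh_tt]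
    · subst h
      rw [δ_tt, δ_tt, map_sum]
      refine Finset.sum_congr rfl fun y _ => ?_
      rw [map_mul, map_pow, sh_tt, sh_tt]
    · rw [δ_tt_gt (by omega), δ_tt_gt h, sh_tt]
  exact DFunLike.congr_fun this x

theorem sh_cob (m : ℕ) (I : ℕ → ℕ) (s : ℕ) (x : KP p) :
    sh p (cob p s x) = dl p m I s (sh p x) := by
  rw [cob, dl]
  simp only [LinearMap.add_apply, LinearMap.sum_apply, LinearMap.smul_apply, LinearMap.id_apply,
    map_add, map_sum, map_smul, AlgHom.toLinearMap_apply]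
  rw [Finset.sum_range_succ' _ s, pow_zero, one_smul, ph_sh_zero]
  simp only [ph_sh_succ]
  ring

section Bridge

variable {m B : ℕ} {I : ℕ → ℕ} (hI : Mon m I) (hB : ∀ n < m, B ≤ I n)
include hB

theorem sh_Z {s N : ℕ} (hN : N < p ^ B) {x : KP p} :
    (CC p m I hI).Z s N (sh p x) ↔ x ∈ Zc p s N := by
  constructor
  · rintro ⟨h1, h2⟩
    refine ⟨(sh_K hB hN).1 h1, ?_⟩
    change cob p s x = 0
    refine sh_injective ?_
    rw [map_zero, sh_cob m I]
    exact h2
  · rintro ⟨h1, h2⟩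
    refine ⟨sh_mem h1, ?_⟩
    change dl p m I s (sh p x) = 0
    have h3 : cob p s x = 0 := h2
    rw [← sh_cob, h3, map_zero]

theorem sh_B {s N : ℕ} (hN : N < p ^ B) {x : KP p} :
    (CC p m I hI).B s N (sh p x) ↔ x ∈ Bc p s N := by
  cases s with
  | zero =>
    change sh p x = 0 ↔ x ∈ (⊥ : Submodule (ZMod p) (KP p))
    rw [Submodule.mem_bot]
    exact ⟨fun h => sh_injective (by rw [h, map_zero]), fun h => by rw [h, map_zero]⟩
  | succ s =>
    change (∃ g ∈ (CC p m I hI).K s N, dl p m I s g = sh p x) ↔ x ∈ (Ch p s N).map (cob p s)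
    rw [Submodule.mem_map]
    constructor
    · rintro ⟨g, hg, hg'⟩
      have hg1 : g ∈ KK p m I s N := hg
      refine ⟨eta p g, eta_mem hB hN hg1, sh_injective ?_⟩
      rw [sh_cob m I, sh_eta hB (by exact_mod_cast hN) hg1, hg']
    · rintro ⟨g, hg, rfl⟩
      exact ⟨sh p g, sh_mem hg, (sh_cob m I s g).symm⟩

theorem exists_sh {s N : ℕ} (hN : N < p ^ B) {g : KP p} (hg : g ∈ (CC p m I hI).K s N) :
    ∃ x, sh p x = g :=
  ⟨eta p g, sh_eta hB (by exact_mod_cast hN) (show g ∈ KK p m I s N from hg)⟩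

end Bridge

omit [Fact p.Prime] in
theorem sh_b10 : sh p (b10 p) = bb p 0 := by
  have h1 : b10 p = LL p (X (0, 0)) (X (1, 0)) := rfl
  have h2 := map_LL (sh p : KP p →+* KP p) p (X (0, 0)) (X (1, 0))
  rw [h1]
  refine h2.trans ?_
  rw [bb, tau, tau, pow_zero, pow_one, pow_one]
  change LL p (sh p (X (0, 0))) (sh p (X (1, 0))) = _
  rw [sh_X, sh_X]

/-- `b_(1,i)` in the blocks `0, 1` -/
noncomputable def mulx (p i : ℕ) (x : KP p) : KP p := b10 p ^ p ^ i * sh p (sh p x)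

theorem bb_frob (i : ℕ) : bb p i = bb p 0 ^ p ^ i := by
  have h := LL_frob (X (1, 0) : KP p) (X (2, 0)) i
  rw [bb, bb, tau, tau, tau, tau, h]
  simp

theorem sh_mulx (m : ℕ) (I : ℕ → ℕ) (i : ℕ) (x : KP p) :
    sh p (mulx p i x) = - bet p m I i (sh p x) := by
  rw [mulx, bet_apply, neg_neg, map_mul, map_pow, sh_b10, bb_frob i, ph_sh_zero, ph_sh_zero]

omit [Fact p.Prime] in
theorem mulx_zero : mulx p 0 = mulb p := by
  funext x
  rw [mulx, mulb, pow_zero, pow_one]

omit [Fact p.Prime] in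
theorem mulx_one : mulx p 1 = mulc p := by
  funext x
  rw [mulx, mulc, pow_one]

theorem lt_wt (m : ℕ) : m < wt p m := by
  have h1 : p ^ m ≤ wt p m :=
    Finset.single_le_sum (f := fun i => p ^ i) (fun _ _ => Nat.zero_le _) (mem_range.2 (by omega))
  have h2 := Nat.lt_pow_self (Fact.out : p.Prime).one_lt (n := m)
  omega

theorem JJ_B (m B : ℕ) : ∀ n < m, B ≤ JJ m B 0 n := by
  intro n hn
  rw [JJ, if_pos hn, if_neg (by omega)]

theorem opx (i : ℕ) : IsOp p (p ^ (i + 1)) (mulx p i) where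
  sub x y := by simp only [mulx, map_sub, mul_sub]
  Z s N z hz := by
    set B := N + p ^ (i + 1) with hBdef
    obtain ⟨L, hL⟩ := reach_JJ B B 0 (Nat.zero_le _)
    have hlt := Nat.lt_pow_self (Fact.out : p.Prime).one_lt (n := B)
    have h1 := (sh_Z hL.mon (JJ_B B B) (s := s) (show N < p ^ B by omega)).2 hz
    refine (sh_Z hL.mon (JJ_B B B) (show N + p ^ (i + 1) < p ^ B by omega)).1 ?_
    rw [sh_mulx B (JJ B B 0)]
    refine Cpx.Z.neg ⟨?_, ?_⟩
    · have := (bet_op hL.mon i).mem _ _ _ h1.1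
      push_cast
      exact this
    · rw [← (bet_op hL.mon i).comm _ _ _ h1.1, h1.2, map_zero]
  B s N z hz := by
    set B := N + p ^ (i + 1) with hBdef
    obtain ⟨L, hL⟩ := reach_JJ B B 0 (Nat.zero_le _)
    have hlt := Nat.lt_pow_self (Fact.out : p.Prime).one_lt (n := B)
    have h1 := (sh_B hL.mon (JJ_B B B) (s := s) (show N < p ^ B by omega)).2 hz
    refine (sh_B hL.mon (JJ_B B B) (show N + p ^ (i + 1) < p ^ B by omega)).1 ?_
    rw [sh_mulx B (JJ B B 0)]
    refine Cpx.B.neg ?_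
    cases s with
    | zero =>
      have h2 : sh p z = 0 := h1
      rw [h2, map_zero]
      exact Cpx.B.zero _ _
    | succ s =>
      obtain ⟨g, hg, hg'⟩ := h1
      rw [← hg', (bet_op hL.mon i).comm _ _ _ hg]
      refine Cpx.B.d ?_
      have := (bet_op hL.mon i).mem _ _ _ hg
      push_cast
      exact this

theorem van_of_nm (s N : ℕ) (h : NM p s N) : Van p s N := by
  intro z hz
  obtain ⟨L, hL⟩ := reach_JJ N N 0 (Nat.zero_le _)
  have hlt := Nat.lt_pow_self (Fact.out : p.Prime).one_lt (n := N)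
  refine (sh_B hL.mon (JJ_B N N) hlt).1 (ex_of_reach hL ?_ ?_ _
    ((sh_Z hL.mon (JJ_B N N) hlt).2 hz))
  · exact_mod_cast lt_wt (p := p) N
  · intro N' hN'
    have : N' = N := by exact_mod_cast hN'
    subst this
    exact h L hL.nodup

theorem cone_ex (i s N : ℕ) (h1 : NM' p (0, i) (s + 1) (N + p ^ (i + 1)))
    (h2 : NM' p (0, i) s (N + p ^ (i + 1) - p ^ i)) : ∃ (m B : ℕ) (I : ℕ → ℕ) (hI : Mon m I),
      (∀ n < m, B ≤ I n) ∧ N + p ^ (i + 1) < p ^ B ∧
      ((CC p m I hI).Cone (bet_op hI i)).Ex (s + 1) ((N : ℤ) + (p : ℤ) ^ (i + 1)) := by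
  set m := i + 1 + (N + p ^ (i + 1)) with hm
  obtain ⟨L, hL⟩ := creach_JJ m i (by omega) (N + p ^ (i + 1)) 0 (Nat.zero_le _)
  rw [← hm] at hL
  have hlt := Nat.lt_pow_self (Fact.out : p.Prime).one_lt (n := m)
  refine ⟨m, m, JJ m m 0, hL.mon, JJ_B m m, by omega, cone_of_creach hL ?_ ?_ ?_⟩
  · have := lt_wt (p := p) m
    have h3 : ((N + p ^ (i + 1) : ℕ) : ℤ) < wt p m := by
      have : N + p ^ (i + 1) < wt p m := by omega
      exact_mod_cast this
    push_cast at h3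
    exact h3
  · intro N' hN'
    have : N' = N + p ^ (i + 1) := by
      have h3 : (N' : ℤ) = ((N + p ^ (i + 1) : ℕ) : ℤ) := by push_cast; exact hN'
      exact_mod_cast h3
    subst this
    exact h1 L hL.nodup.1 hL.nodup.2
  · intro s' hs' N' hN'
    obtain rfl : s' = s := by omega
    have h4 : p ^ i ≤ p ^ (i + 1) := Nat.pow_le_pow_right (Fact.out : p.Prime).pos (by omega)
    have : N' = N + p ^ (i + 1) - p ^ i := by
      have h3 : (N' : ℤ) = ((N + p ^ (i + 1) - p ^ i : ℕ) : ℤ) := by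
        rw [Nat.cast_sub (by omega)]; push_cast; exact hN'
      exact_mod_cast h3
    subst this
    exact h2 L hL.nodup.1 hL.nodup.2

theorem epix (i s N : ℕ) (h1 : NM' p (0, i) (s + 2) (N + p ^ (i + 1)))
    (h2 : NM' p (0, i) (s + 1) (N + p ^ (i + 1) - p ^ i)) (y : KP p)
    (hy : y ∈ Zc p (s + 2) (N + p ^ (i + 1))) :
    ∃ z ∈ Zc p s N, y - mulx p i z ∈ Bc p (s + 2) (N + p ^ (i + 1)) := by
  obtain ⟨m, B, I, hI, hB, hN, hE⟩ := cone_ex i (s + 1) N h1 h2
  have hy' := (sh_Z hI hB hN).2 hy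
  rw [show ((N + p ^ (i + 1) : ℕ) : ℤ) = (N : ℤ) + (p : ℤ) ^ (i + 1) by push_cast; rfl] at hy'
  obtain ⟨g, hg, hg'⟩ := (bet_op hI i).epi hE hy'
  have hN' : N < p ^ B := by omega
  obtain ⟨x, rfl⟩ := exists_sh hI hB hN' hg.1
  refine ⟨-x, neg_mem ((sh_Z hI hB hN').1 hg), (sh_B hI hB hN).1 ?_⟩
  rw [map_sub, sh_mulx m I, map_neg, map_neg, neg_neg]
  push_cast
  exact hg'

theorem monox (i s N : ℕ) (h1 : NM' p (0, i) (s + 1) (N + p ^ (i + 1)))
    (h2 : NM' p (0, i) s (N + p ^ (i + 1) - p ^ i)) (z : KP p)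
    (hz : z ∈ Zc p s N) (hz' : mulx p i z ∈ Bc p (s + 2) (N + p ^ (i + 1))) : z ∈ Bc p s N := by
  obtain ⟨m, B, I, hI, hB, hN, hE⟩ := cone_ex i s N h1 h2
  have hN' : N < p ^ B := by omega
  refine (sh_B hI hB hN').1 ((bet_op hI i).mono hE ((sh_Z hI hB hN').2 hz) ?_)
  have h3 := (sh_B hI hB hN).2 hz'
  rw [sh_mulx m I] at h3
  have h4 := h3.neg
  rw [neg_neg] at h4
  push_cast at h4
  exact h4

/-- The output of the tower. -/
theorem towerOut (p : ℕ) [Fact p.Prime] : TowerOut p where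
  van := van_of_nm
  opb := by
    have := opx (p := p) 0
    rwa [mulx_zero, zero_add, pow_one] at this
  epib s N h1 h2 y hy := by
    have := epix (p := p) 0 s N
    rw [mulx_zero, zero_add, pow_one, pow_zero] at this
    exact this h1 h2 y hy
  monob s N h1 h2 z hz hz' := by
    have := monox (p := p) 0 s N
    rw [mulx_zero, zero_add, pow_one, pow_zero] at this
    exact this h1 h2 z hz hz'
  opc := by
    have := opx (p := p) 1
    rwa [mulx_one] at this
  epic s N h1 h2 y hy := by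
    have := epix (p := p) 1 s N
    rw [mulx_one, pow_one] at this
    exact this h1 h2 y hy

end Vale.Agent.P257.X
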