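import Vale.Agent.P257.X.Iface

/-! The assembly of `PFacts`. -/

namespace Vale.Agent.P257.X

open MvPolynomial Finset
open Vale.Agent.P257.Q.PC Vale.Agent.P257.N

variable {p : ℕ}

namespace IsOp

variable {n : ℕ} {f : KP p → KP p} (h : IsOp p n f)
include h

theorem iter_Z (m : ℕ) {s N : ℕ} {z : KP p} (hz : z ∈ Zc p s N) :
    f^[m] z ∈ Zc p (s + 2 * m) (N + m * n) := by
  induction m with
  | zero => simpa using hz
  | succ m ih =>
    rw [Function.iterate_succ_apply']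
    have := h.Z _ _ _ ih
    rwa [show s + 2 * m + 2 = s + 2 * (m + 1) by ring,
      show N + m * n + n = N + (m + 1) * n by ring] at this

theorem iter_B (m : ℕ) {s N : ℕ} {z : KP p} (hz : z ∈ Bc p s N) :
    f^[m] z ∈ Bc p (s + 2 * m) (N + m * n) := by
  induction m with
  | zero => simpa using hz
  | succ m ih =>
    rw [Function.iterate_succ_apply']
    have := h.B _ _ _ ih
    rwa [show s + 2 * m + 2 = s + 2 * (m + 1) by ring,
      show N + m * n + n = N + (m + 1) * n by ring] at this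

/-- If `f` is onto in each of `m` steps, so is `f ^ m`. -/
theorem iter_epi {s N : ℕ} (m : ℕ)
    (H : ∀ j, 1 ≤ j → j ≤ m → ∀ y ∈ Zc p (s + 2 * j) (N + j * n),
      ∃ z ∈ Zc p (s + 2 * (j - 1)) (N + (j - 1) * n), y - f z ∈ Bc p (s + 2 * j) (N + j * n))
    (y : KP p) (hy : y ∈ Zc p (s + 2 * m) (N + m * n)) :
    ∃ w ∈ Zc p s N, y - f^[m] w ∈ Bc p (s + 2 * m) (N + m * n) := by
  induction m generalizing y with
  | zero =>
    refine ⟨y, by simpa using hy, ?_⟩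
    rw [Function.iterate_zero, id, sub_self]
    exact zero_mem _
  | succ m ih =>
    obtain ⟨z, hz, hz'⟩ := H (m + 1) (by omega) le_rfl y hy
    rw [Nat.add_sub_cancel] at hz
    obtain ⟨w, hw, hw'⟩ := ih (fun j h1 h2 => H j h1 (by omega)) z hz
    refine ⟨w, hw, ?_⟩
    rw [Function.iterate_succ_apply']
    have h3 := h.B _ _ _ hw'
    rw [h.sub, show s + 2 * m + 2 = s + 2 * (m + 1) by ring,
      show N + m * n + n = N + (m + 1) * n by ring] at h3
    have := add_mem hz' h3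
    rwa [sub_add_sub_cancel] at this

theorem van_of_epi {s N : ℕ} (m : ℕ)
    (H : ∀ j, 1 ≤ j → j ≤ m → ∀ y ∈ Zc p (s + 2 * j) (N + j * n),
      ∃ z ∈ Zc p (s + 2 * (j - 1)) (N + (j - 1) * n), y - f z ∈ Bc p (s + 2 * j) (N + j * n))
    (hV : Van p s N) : Van p (s + 2 * m) (N + m * n) := by
  intro y hy
  obtain ⟨w, hw, hw'⟩ := h.iter_epi m H y hy
  have := add_mem hw' (h.iter_B m (hV hw))
  rwa [sub_add_cancel] at this

/-- If `f` is injective in each of `m` steps, so is `f ^ m`. -/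
theorem iter_mono {s N : ℕ} (m : ℕ)
    (H : ∀ j, j < m → ∀ z ∈ Zc p (s + 2 * j) (N + j * n),
      f z ∈ Bc p (s + 2 * (j + 1)) (N + (j + 1) * n) → z ∈ Bc p (s + 2 * j) (N + j * n))
    (z : KP p) (hz : z ∈ Zc p s N) (hb : f^[m] z ∈ Bc p (s + 2 * m) (N + m * n)) :
    z ∈ Bc p s N := by
  induction m with
  | zero => simpa using hb
  | succ m ih =>
    refine ih (fun j hj => H j (by omega)) (H m (by omega) _ (h.iter_Z m hz) ?_)
    rwa [Function.iterate_succ_apply'] at hb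

end IsOp

theorem TowerOut.stepb (T : TowerOut p) {s N j : ℕ} (hj : 1 ≤ j)
    (h1 : NM' p (0, 0) (s + 2 * j) (N + j * p)) (h2 : NM' p (0, 0) (s + 2 * j - 1) (N + j * p - 1)) :
    ∀ y ∈ Zc p (s + 2 * j) (N + j * p), ∃ z ∈ Zc p (s + 2 * (j - 1)) (N + (j - 1) * p),
      y - mulb p z ∈ Bc p (s + 2 * j) (N + j * p) := by
  obtain ⟨i, rfl⟩ : ∃ i, j = i + 1 := ⟨j - 1, by omega⟩
  rw [Nat.add_sub_cancel]
  have e1 : s + 2 * (i + 1) = s + 2 * i + 2 := by ring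
  have e2 : N + (i + 1) * p = N + i * p + p := by ring
  rw [e1, e2] at h1 h2 ⊢
  exact T.epib _ _ h1 (by
    rwa [show s + 2 * i + 2 - 1 = s + 2 * i + 1 by omega] at h2)

theorem TowerOut.stepc (T : TowerOut p) {s N j : ℕ} (hj : 1 ≤ j)
    (h1 : NM' p (0, 1) (s + 2 * j) (N + j * p ^ 2))
    (h2 : NM' p (0, 1) (s + 2 * j - 1) (N + j * p ^ 2 - p)) :
    ∀ y ∈ Zc p (s + 2 * j) (N + j * p ^ 2), ∃ z ∈ Zc p (s + 2 * (j - 1)) (N + (j - 1) * p ^ 2),
      y - mulc p z ∈ Bc p (s + 2 * j) (N + j * p ^ 2) := by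
  obtain ⟨i, rfl⟩ : ∃ i, j = i + 1 := ⟨j - 1, by omega⟩
  rw [Nat.add_sub_cancel]
  have e1 : s + 2 * (i + 1) = s + 2 * i + 2 := by ring
  have e2 : N + (i + 1) * p ^ 2 = N + i * p ^ 2 + p ^ 2 := by ring
  rw [e1, e2] at h1 h2 ⊢
  exact T.epic _ _ h1 (by
    rwa [show s + 2 * i + 2 - 1 = s + 2 * i + 1 by omega] at h2)

/-- The case `k = 2`. -/
theorem van_two (T : TowerOut p) (C : Num p) (S : Small p) (hp : 11 ≤ p) :
    Van p (2 * (2 * (p - 1)) + 1) (ee p + 2) := by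
  obtain ⟨r, rfl⟩ : ∃ r, p = r + 2 := ⟨p - 2, by omega⟩
  have h1 := T.opc.van_of_epi r (fun j h1 h2 => T.stepc h1 ((C.E2b j h1 (by omega)).1)
    (by
      have := (C.E2b j h1 (by omega)).2
      rwa [show 4 + 2 * j = 5 + 2 * j - 1 by omega] at this)) S.S1
  have e1 : 5 + 2 * r = 2 * (r + 2) + 1 := by ring
  have e2 : 3 + 3 * (r + 2) + 2 * (r + 2) ^ 2 + r * (r + 2) ^ 2 = 3 + 3 * (r + 2) + (r + 2) ^ 3 := by
    ring
  rw [e1, e2] at h1
  have h2 := T.opb.van_of_epi r (fun j h1 h2 => T.stepb h1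
    ((C.E2a j h1 (by omega)).1)
    (by
      have := (C.E2a j h1 (by omega)).2
      rwa [show 2 * (r + 2) + 2 * j = 2 * (r + 2) + 1 + 2 * j - 1 by omega] at this)) h1
  have e3 : 2 * (r + 2) + 1 + 2 * r = 2 * (2 * (r + 2 - 1)) + 1 := by omega
  have e4 : 3 + 3 * (r + 2) + (r + 2) ^ 3 + r * (r + 2) = ee (r + 2) + 2 := by
    unfold ee; ring
  rwa [e3, e4] at h2

/-- The case `k = p - 1`. -/
theorem van_pred (T : TowerOut p) (C : Num p) (S : Small p) (hp : 11 ≤ p) :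
    Van p ((p - 1) * (2 * (p - 1)) + 1) (ee p + (p - 1)) := by
  obtain ⟨r, rfl⟩ : ∃ r, p = r + 3 := ⟨p - 3, by omega⟩
  have e0 : (r + 3) ^ 2 - 2 * (r + 3) - 2 = r ^ 2 + 4 * r + 1 := by
    have : (r + 3) ^ 2 = r ^ 2 + 4 * r + 1 + 2 + 2 * (r + 3) := by ring
    omega
  have h1 := T.opb.van_of_epi (r ^ 2 + 4 * r + 1) (fun j h1 h2 => T.stepb h1
    ((C.E3 j h1 (by omega)).1)
    (by
      have := (C.E3 j h1 (by omega)).2
      rwa [show 6 + 2 * j = 7 + 2 * j - 1 by omega] at this)) S.S2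
  have e3 : 7 + 2 * (r ^ 2 + 4 * r + 1) = (r + 3 - 1) * (2 * (r + 3 - 1)) + 1 := by
    rw [show r + 3 - 1 = r + 2 by omega]; ring
  have e4 : 4 * (r + 3) + 3 * (r + 3) ^ 2 + (r ^ 2 + 4 * r + 1) * (r + 3) =
      ee (r + 3) + (r + 3 - 1) := by
    rw [show r + 3 - 1 = r + 2 by omega]; unfold ee; ring
  rwa [e3, e4] at h1

/-- The sources with `j = p - 1`. -/
theorem van_source (T : TowerOut p) (C : Num p) (S : Small p) (hp : 11 ≤ p) :
    Van p ((p - 1) * (2 * (p - 1)) + 6) (ee p + 3 * p + (p - 1)) := by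
  obtain ⟨r, rfl⟩ : ∃ r, p = r + 1 := ⟨p - 1, by omega⟩
  rw [show r + 1 - 1 = r by omega]
  have h1 := T.opb.van_of_epi (r ^ 2) (fun j h1 h2 => T.stepb h1
    ((C.E6 j h1 (by simpa using h2)).1)
    (by
      have := (C.E6 j h1 (by simpa using h2)).2
      rwa [show 5 + 2 * j = 6 + 2 * j - 1 by omega] at this)) S.S2'
  have e3 : 6 + 2 * r ^ 2 = r * (2 * r) + 6 := by ring
  have e4 : 4 * (r + 1) + 3 * (r + 1) ^ 2 + r ^ 2 * (r + 1) = ee (r + 1) + 3 * (r + 1) + r := by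
    unfold ee; ring
  rwa [e3, e4] at h1

theorem exists_w (T : TowerOut p) (C : Num p) (hp : 11 ≤ p) :
    ∀ y ∈ Zc p (p * (2 * (p - 1)) + 1) (ee p + p), ∃ w ∈ Zc p 5 (1 + 4 * p + 2 * p ^ 2),
    y - (mulb p)^[p ^ 2 - p - 2] w ∈ Bc p (p * (2 * (p - 1)) + 1) (ee p + p) := by
  obtain ⟨r, rfl⟩ : ∃ r, p = r + 2 := ⟨p - 2, by omega⟩
  have e0 : (r + 2) ^ 2 - (r + 2) - 2 = r ^ 2 + 3 * r := by
    have : (r + 2) ^ 2 = r ^ 2 + 3 * r + 2 + (r + 2) := by ring
    omega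
  have h1 := T.opb.iter_epi (r ^ 2 + 3 * r) (fun j h1 h2 => T.stepb h1
    ((C.E4 j h1 (by omega)).1)
    (by
      have := (C.E4 j h1 (by omega)).2
      rwa [show 4 + 2 * j = 5 + 2 * j - 1 by omega] at this))
  have e3 : 5 + 2 * (r ^ 2 + 3 * r) = (r + 2) * (2 * (r + 2 - 1)) + 1 := by
    rw [show r + 2 - 1 = r + 1 by omega]; ring
  have e4 : 1 + 4 * (r + 2) + 2 * (r + 2) ^ 2 + (r ^ 2 + 3 * r) * (r + 2) =
      ee (r + 2) + (r + 2) := by
    unfold ee; ring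
  rw [e3, e4] at h1
  rw [e0]
  exact h1

theorem exists_T (T : TowerOut p) (C : Num p) :
    ∀ y ∈ Zc p (2 * (2 * (p - 1)) + 6) (ee p + 3 * p + 2),
    ∃ t ∈ Zc p (2 * (2 * (p - 1))) (ee p + 2),
      y - (mulb p)^[3] t ∈ Bc p (2 * (2 * (p - 1)) + 6) (ee p + 3 * p + 2) := by
  have h1 := T.opb.iter_epi (s := 2 * (2 * (p - 1))) (N := ee p + 2) 3
    (fun j h1 h2 => T.stepb h1 ((C.E6' j h1 h2).1) ((C.E6' j h1 h2).2))
  have e3 : 2 * (2 * (p - 1)) + 2 * 3 = 2 * (2 * (p - 1)) + 6 := by ring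
  have e4 : ee p + 2 + 3 * p = ee p + 3 * p + 2 := by ring
  rwa [e3, e4] at h1

theorem mulb_three_inj (T : TowerOut p) (C : Num p) :
    ∀ y ∈ Zc p (p * (2 * (p - 1)) + 1) (ee p + p),
    (mulb p)^[3] y ∈ Bc p (p * (2 * (p - 1)) + 7) (ee p + 4 * p) →
      y ∈ Bc p (p * (2 * (p - 1)) + 1) (ee p + p) := by
  intro y hy hb
  have h1 := T.opb.iter_mono (s := p * (2 * (p - 1)) + 1) (N := ee p + p) 3
    (fun j hj z hz hz' => by
      have h2 := T.monob (p * (2 * (p - 1)) + 1 + 2 * j) (ee p + p + j * p) (by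
          have := (C.M7 j (by omega)).1
          rwa [show p * (2 * (p - 1)) + 2 + 2 * j = p * (2 * (p - 1)) + 1 + 2 * j + 1 by ring,
            show ee p + (j + 2) * p = ee p + p + j * p + p by ring] at this) (by
          have := (C.M7 j (by omega)).2
          rwa [show ee p + (j + 2) * p = ee p + p + j * p + p by ring] at this) z hz
      refine h2 ?_
      rwa [show p * (2 * (p - 1)) + 1 + 2 * (j + 1) = p * (2 * (p - 1)) + 1 + 2 * j + 2 by ring,
        show ee p + p + (j + 1) * p = ee p + p + j * p + p by ring] at hz')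
    y hy
  refine h1 ?_
  rwa [show p * (2 * (p - 1)) + 1 + 2 * 3 = p * (2 * (p - 1)) + 7 by ring,
    show ee p + p + 3 * p = ee p + 4 * p by ring]

/-- The assembly. -/
theorem pfacts_of (hp : 11 ≤ p) (T : TowerOut p) (C : Num p) (S : Small p) (h2 : G2 p) :
    PFacts p where
  vanish s N h := T.van _ _ (C.V s N h)
  G2 := h2
  G3 k h1 h3 := by
    rcases Nat.lt_or_ge k 3 with h4 | h4
    · obtain rfl : k = 2 := by omega
      exact van_two T C S hp
    · rcases eq_or_ne k (p - 1) with rfl | h5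
      · exact van_pred T C S hp
      · exact T.van _ _ (C.G3 k h4 h5 h3)
  G4 := exists_w T C hp
  G4' := S.S3
  G5 k h1 _ := T.van _ _ (C.G5 k h1)
  G6 j h1 h3 := by
    rcases Nat.lt_or_ge j (p - 1) with h4 | h4
    · exact T.van _ _ (C.G6 j h1 (by omega))
    · obtain rfl : j = p - 1 := by omega
      exact van_source T C S hp
  G6' := exists_T T C
  G7 := mulb_three_inj T C

end Vale.Agent.P257.X
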