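import Vale.Agent.P257.X.Top

/-! The chain of all steps of the tower -/

namespace Vale.Agent.P257.X

open MvPolynomial Finset Vale.Agent.P257.Q.PC

variable {p : ℕ}

/-- The thresholds `I` are reached from `0` by raising; `L` is the list of the letters. -/
inductive Reach (m : ℕ) : (ℕ → ℕ) → List (ℕ × ℕ) → Prop
  | zero : Reach m (fun _ => 0) []
  | step {I L} (n : ℕ) (h : Adm m I n) : Reach m I L → Reach m (raise I n) ((n, I n) :: L)

theorem Reach.mon {m : ℕ} {I : ℕ → ℕ} {L : List (ℕ × ℕ)} (h : Reach m I L) : Mon m I := by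
  induction h with
  | zero => exact mon_zero m
  | step n h _ ih => exact h.mon ih

theorem Reach.lt {m : ℕ} {I : ℕ → ℕ} {L : List (ℕ × ℕ)} (h : Reach m I L) :
    ∀ x ∈ L, x.2 < I x.1 := by
  induction h with
  | zero => intro x hx; simp at hx
  | @step I L n h _ ih =>
    intro x hx
    rw [List.mem_cons] at hx
    rcases hx with rfl | hx
    · rw [raise_self]; exact Nat.lt_succ_self _
    · have := ih x hx
      by_cases h1 : x.1 = n
      · rw [h1, raise_self]; rw [h1] at this; omega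
      · rwa [raise_ne _ h1]

theorem Reach.nodup {m : ℕ} {I : ℕ → ℕ} {L : List (ℕ × ℕ)} (h : Reach m I L) : L.Nodup := by
  induction h with
  | zero => exact List.nodup_nil
  | @step I L n h hR ih =>
    refine List.nodup_cons.2 ⟨fun h1 => ?_, ih⟩
    exact absurd (hR.lt _ h1) (lt_irrefl _)

/-- There is no monomial of degree `(s, N)`, `N` an integer. -/
def NoM (p : ℕ) (L : List (ℕ × ℕ)) (s : ℕ) (N : ℤ) : Prop :=
  ∀ N' : ℕ, (N' : ℤ) = N → ¬ Vale.Agent.P257.N.Mon p L s N'

theorem NoM.cons {n i : ℕ} {L : List (ℕ × ℕ)} {s : ℕ} {N : ℤ} (h : NoM p ((n, i) :: L) s N)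
    {s' ε j : ℕ} (hε : ε ≤ 1) (hs : s = s' + ε + 2 * j) :
    NoM p L s' (N - (ε + p * j) * ((p : ℤ) ^ i * wt p n)) := by
  intro N' hN' hM
  refine h (N' + (ε + p * j) * (p ^ i * wt p n)) ?_ ?_
  · push_cast
    rw [hN']; ring
  · exact ⟨ε, j, s', N', hε, by omega, by rw [Vale.Agent.P257.N.lw]; ring, hM⟩

variable [Fact p.Prime]

theorem ex_of_reach {m : ℕ} {I : ℕ → ℕ} {L : List (ℕ × ℕ)} (h : Reach m I L) : ∀ {s : ℕ} {N : ℤ},
    N < wt p m → NoM p L s N → (CC p m I h.mon).Ex s N := by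
  induction h with
  | zero =>
    intro s N hN hL
    refine top hN ?_
    rintro ⟨rfl, rfl⟩
    exact hL 0 rfl ⟨rfl, rfl⟩
  | @step I L n h hR ih =>
    intro s N hN hL
    refine (iso hR.mon h).ex_iff.1 ((der hR.mon h).tower (Fact.out : p.Prime).one_le s N ?_)
    intro s' ε j hε hs
    refine ih ?_ (hL.cons hε hs)
    have : 0 ≤ ((ε : ℤ) + p * j) * ((p : ℤ) ^ I n * wt p n) := by positivity
    omega

/-- The round `i`: the `k` largest indices have been raised. -/
def JJ (m i k : ℕ) : ℕ → ℕ := fun n => if n < m then (if m - k ≤ n then i + 1 else i) else 0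

theorem JJ_adm {m i k : ℕ} (h : k < m) : Adm m (JJ m i k) (m - 1 - k) := by
  refine ⟨by omega, fun n' h1 h2 => ?_⟩
  rw [JJ, JJ, if_pos (by omega), if_neg (by omega), if_pos h2, if_pos (by omega)]

theorem JJ_raise {m i k : ℕ} (h : k < m) : raise (JJ m i k) (m - 1 - k) = JJ m i (k + 1) := by
  funext n
  by_cases h1 : n = m - 1 - k
  · subst h1
    rw [raise_self, JJ, JJ, if_pos (by omega), if_neg (by omega), if_pos (by omega),
      if_pos (by omega)]
  · rw [raise_ne _ h1, JJ, JJ]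
    by_cases h2 : n < m
    · rw [if_pos h2, if_pos h2]
      by_cases h3 : m - k ≤ n
      · rw [if_pos h3, if_pos (by omega)]
      · rw [if_neg h3, if_neg (by omega)]
    · rw [if_neg h2, if_neg h2]

theorem JJ_next (m i : ℕ) : JJ m i m = JJ m (i + 1) 0 := by
  funext n
  rw [JJ, JJ]
  split_ifs <;> omega

theorem JJ_zero (m : ℕ) : JJ m 0 0 = fun _ => 0 := by
  funext n
  rw [JJ]
  split_ifs <;> omega

theorem reach_JJ (m i k : ℕ) (hk : k ≤ m) : ∃ L, Reach m (JJ m i k) L := by
  induction i generalizing k with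
  | zero =>
    induction k with
    | zero => rw [JJ_zero]; exact ⟨_, Reach.zero⟩
    | succ k ih =>
      obtain ⟨L, hL⟩ := ih (by omega)
      rw [← JJ_raise hk]
      exact ⟨_, hL.step _ (JJ_adm hk)⟩
  | succ i ih' =>
    induction k with
    | zero => rw [← JJ_next]; exact ih' m le_rfl
    | succ k ih =>
      obtain ⟨L, hL⟩ := ih (by omega)
      rw [← JJ_raise hk]
      exact ⟨_, hL.step _ (JJ_adm hk)⟩

end Vale.Agent.P257.X
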