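import Vale.Agent.P257.Q.PDefs
import Vale.Agent.P257.X.Abs
import Vale.Agent.P257.X.Gen

/-! The cobar complex of `P` with coefficients in the comodule algebras
`D_I = k[t_(n+1)^(p^I n) : n < m]` -/

namespace Vale.Agent.P257.X

open MvPolynomial Finset Vale.Agent.P257.Q.PC

variable {p : ℕ} [Fact p.Prime]

/-- `t_c ^ (p ^ I n)` in terms of the generators `y_a = t_(a+1)^(p^I a)` of the coefficients. -/
noncomputable def yy (p : ℕ) (I : ℕ → ℕ) (n c : ℕ) : KP p :=
  if c = 0 then 1 else X (0, c - 1) ^ p ^ (I n - I (c - 1))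

/-- The coaction on `y_n`. -/
noncomputable def coact (p m : ℕ) (I : ℕ → ℕ) (n : ℕ) : KP p :=
  if n < m then ∑ x ∈ antidiagonal (n + 1), yy p I n x.1 * tt p 1 x.2 ^ p ^ (x.1 + I n) else 0

/-- The faces. -/
noncomputable def ph (p m : ℕ) (I : ℕ → ℕ) : ℕ → (KP p →ₐ[ZMod p] KP p)
  | 0 => aeval fun x => if x.1 = 0 then coact p m I x.2 else X (x.1 + 1, x.2)
  | i + 1 => δ p (i + 1)

theorem ph_succ (p m : ℕ) (I : ℕ → ℕ) (i : ℕ) : ph p m I (i + 1) = δ p (i + 1) := rfl

theorem ph_zero_X (p m : ℕ) (I : ℕ → ℕ) (x : ℕ × ℕ) :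
    ph p m I 0 (X x) = if x.1 = 0 then coact p m I x.2 else X (x.1 + 1, x.2) := by
  rw [ph, aeval_X]

theorem δ_X (p i : ℕ) (x : ℕ × ℕ) : δ p i (X x) = if x.1 < i then X x else if x.1 = i then
    ∑ a ∈ range (x.2 + 2), tt p i a * tt p (i + 1) (x.2 + 1 - a) ^ p ^ a
  else X (x.1 + 1, x.2) := by
  rw [δ, aeval_X]

theorem cop_eq (p i n : ℕ) : ∑ a ∈ range (n + 2), tt p i a * tt p (i + 1) (n + 1 - a) ^ p ^ a =
    ∑ x ∈ antidiagonal (n + 1), tt p i x.1 * tt p (i + 1) x.2 ^ p ^ x.1 := by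
  rw [Finset.Nat.sum_antidiagonal_eq_sum_range_succ_mk]

theorem δ_tt (p i n : ℕ) : δ p i (tt p i n) =
    ∑ x ∈ antidiagonal n, tt p i x.1 * tt p (i + 1) x.2 ^ p ^ x.1 := by
  cases n with
  | zero => simp [tt]
  | succ n =>
    rw [show tt p i (n + 1) = X (i, n) from if_neg (by omega), δ_X, if_neg (lt_irrefl _),
      if_pos rfl]
    exact cop_eq p i n

theorem δ_tt_lt {p i j : ℕ} (h : j < i) (n : ℕ) : δ p i (tt p j n) = tt p j n := by
  cases n with
  | zero => simp [tt]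
  | succ n =>
    rw [show tt p j (n + 1) = X (j, n) from if_neg (by omega), δ_X, if_pos h]

theorem δ_tt_gt {p i j : ℕ} (h : i < j) (n : ℕ) : δ p i (tt p j n) = tt p (j + 1) n := by
  cases n with
  | zero => simp [tt]
  | succ n =>
    rw [show tt p j (n + 1) = X (j, n) from if_neg (by omega), δ_X,
      if_neg (by dsimp only; omega), if_neg (by dsimp only; omega)]
    rfl

theorem sh_tt (p j n : ℕ) : sh p (tt p j n) = tt p (j + 1) n := by
  cases n with
  | zero => simp [tt]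
  | succ n =>
    rw [show tt p j (n + 1) = X (j, n) from if_neg (by omega), sh, rename_X]
    rfl

theorem ph_tt (p m : ℕ) (I : ℕ → ℕ) {j : ℕ} (hj : j ≠ 0) (n : ℕ) :
    ph p m I 0 (tt p j n) = tt p (j + 1) n := by
  cases n with
  | zero => simp [tt]
  | succ n =>
    rw [show tt p j (n + 1) = X (j, n) from if_neg (by omega), ph_zero_X, if_neg hj]
    rfl

/-- sums over triples -/
theorem sum_triple {M : Type*} [AddCommMonoid M] (n : ℕ) (f : ℕ → ℕ → ℕ → M) :
    ∑ x ∈ antidiagonal n, ∑ y ∈ antidiagonal x.1, f y.1 y.2 x.2 =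
      ∑ x ∈ antidiagonal n, ∑ y ∈ antidiagonal x.2, f x.1 y.1 y.2 := by
  rw [Finset.sum_sigma', Finset.sum_sigma']
  refine Finset.sum_bij' (fun z _ => ⟨(z.2.1, z.2.2 + z.1.2), (z.2.2, z.1.2)⟩)
    (fun z _ => ⟨(z.1.1 + z.2.1, z.2.2), (z.1.1, z.2.1)⟩) ?_ ?_ ?_ ?_ ?_
  · rintro ⟨⟨a, b⟩, ⟨c, d⟩⟩ h
    rw [mem_sigma, HasAntidiagonal.mem_antidiagonal, HasAntidiagonal.mem_antidiagonal] at h ⊢
    obtain ⟨h1, h2⟩ := h
    dsimp only at h1 h2
    exact ⟨by dsimp only; omega, by dsimp only⟩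
  · rintro ⟨⟨a, b⟩, ⟨c, d⟩⟩ h
    rw [mem_sigma, HasAntidiagonal.mem_antidiagonal, HasAntidiagonal.mem_antidiagonal] at h ⊢
    obtain ⟨h1, h2⟩ := h
    dsimp only at h1 h2
    exact ⟨by dsimp only; omega, by dsimp only⟩
  · rintro ⟨⟨a, b⟩, ⟨c, d⟩⟩ h
    simp only [mem_sigma, HasAntidiagonal.mem_antidiagonal] at h
    obtain ⟨h1, h2⟩ := h
    subst h2
    rfl
  · rintro ⟨⟨a, b⟩, ⟨c, d⟩⟩ h
    simp only [mem_sigma, HasAntidiagonal.mem_antidiagonal] at h
    obtain ⟨h1, h2⟩ := h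
    subst h2
    rfl
  · rintro ⟨⟨a, b⟩, ⟨c, d⟩⟩ h
    rfl

theorem pow_sum (p : ℕ) [Fact p.Prime] {ι : Type*} (s : Finset ι) (f : ι → KP p) (k : ℕ) :
    (∑ i ∈ s, f i) ^ p ^ k = ∑ i ∈ s, f i ^ p ^ k := sum_pow_char_pow _ _ _ _

/-- Coassociativity. -/
theorem coassoc (i n : ℕ) : δ p (i + 1) (δ p i (tt p i n)) = δ p i (δ p i (tt p i n)) := by
  rw [δ_tt, map_sum, map_sum]
  have h1 : ∀ x ∈ antidiagonal n, δ p (i + 1) (tt p i x.1 * tt p (i + 1) x.2 ^ p ^ x.1) =
      ∑ y ∈ antidiagonal x.2, tt p i x.1 * (tt p (i + 1) y.1 ^ p ^ x.1 *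
        tt p (i + 2) y.2 ^ p ^ (x.1 + y.1)) := by
    intro x _
    rw [map_mul, map_pow, δ_tt_lt (by omega), δ_tt, pow_sum, Finset.mul_sum]
    refine Finset.sum_congr rfl fun y _ => ?_
    rw [mul_pow, ← pow_mul, ← pow_add, add_comm x.1]
  have h2 : ∀ x ∈ antidiagonal n, δ p i (tt p i x.1 * tt p (i + 1) x.2 ^ p ^ x.1) =
      ∑ y ∈ antidiagonal x.1, tt p i y.1 * (tt p (i + 1) y.2 ^ p ^ y.1 *
        tt p (i + 2) x.2 ^ p ^ (y.1 + y.2)) := by
    intro x _
    rw [map_mul, map_pow, δ_tt_gt (Nat.lt_succ_self i), δ_tt, Finset.sum_mul]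
    refine Finset.sum_congr rfl fun y hy => ?_
    rw [HasAntidiagonal.mem_antidiagonal.1 hy]
    ring
  rw [Finset.sum_congr rfl h1, Finset.sum_congr rfl h2]
  exact (sum_triple n fun a b c => tt p i a * (tt p (i + 1) b ^ p ^ a *
    tt p (i + 2) c ^ p ^ (a + b))).symm

theorem δ_δ {i j : ℕ} (h : i ≤ j) (f : KP p) : δ p (j + 1) (δ p i f) = δ p i (δ p j f) := by
  have : ((δ p (j + 1)).comp (δ p i)) = (δ p i).comp (δ p j) := by
    refine MvPolynomial.algHom_ext fun x => ?_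
    obtain ⟨l, n⟩ := x
    simp only [AlgHom.comp_apply]
    have hx : (X (l, n) : KP p) = tt p l (n + 1) := (if_neg (by omega)).symm
    rw [hx]
    rcases lt_trichotomy l i with hl | hl | hl
    · rw [δ_tt_lt hl, δ_tt_lt (by omega), δ_tt_lt (by omega), δ_tt_lt hl]
    · subst hl
      rcases Nat.eq_or_lt_of_le h with hj | hj
      · subst hj; exact coassoc l (n + 1)
      · rw [δ_tt_lt hj, δ_tt, map_sum]
        refine Finset.sum_congr rfl fun y _ => ?_
        rw [map_mul, map_pow, δ_tt_lt (by omega), δ_tt_lt (by omega)]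
    · rw [δ_tt_gt hl]
      rcases lt_trichotomy l j with hj | hj | hj
      · rw [δ_tt_lt (by omega), δ_tt_lt hj, δ_tt_gt hl]
      · subst hj
        rw [δ_tt, δ_tt, map_sum]
        refine Finset.sum_congr rfl fun y _ => ?_
        rw [map_mul, map_pow, δ_tt_gt hl, δ_tt_gt (by omega)]
      · rw [δ_tt_gt (by omega), δ_tt_gt hj, δ_tt_gt (by omega)]
  exact DFunLike.congr_fun this f

/-- The thresholds are increasing. -/
def Mon (m : ℕ) (I : ℕ → ℕ) : Prop := ∀ a b, a ≤ b → b < m → I a ≤ I b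

omit [Fact p.Prime] in
theorem coact_eq {m : ℕ} {I : ℕ → ℕ} {n : ℕ} (h : n < m) : coact p m I n =
    ∑ x ∈ antidiagonal (n + 1), yy p I n x.1 * tt p 1 x.2 ^ p ^ (x.1 + I n) := if_pos h

theorem ph_yy {m : ℕ} {I : ℕ → ℕ} (hI : Mon m I) {n c : ℕ} (hn : n < m) (hc : c ≤ n + 1) :
    ph p m I 0 (yy p I n c) =
      ∑ x ∈ antidiagonal c, yy p I n x.1 * tt p 1 x.2 ^ p ^ (x.1 + I n) := by
  cases c with
  | zero => simp [yy, tt]
  | succ c =>
    rw [yy, if_neg (by omega), Nat.add_sub_cancel, map_pow, ph_zero_X, if_pos rfl,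
      coact_eq (by dsimp only; omega), pow_sum]
    refine Finset.sum_congr rfl fun x hx => ?_
    rw [HasAntidiagonal.mem_antidiagonal] at hx
    have h1 := hI c n (by omega) hn
    rw [mul_pow, ← pow_mul, ← pow_add, show x.1 + I c + (I n - I c) = x.1 + I n by omega]
    congr 1
    rw [yy, yy]
    split_ifs with h0
    · rw [one_pow]
    · have h2 := hI (x.1 - 1) c (by omega) (by omega)
      rw [← pow_mul, ← pow_add, show I c - I (x.1 - 1) + (I n - I c) = I n - I (x.1 - 1) by omega]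

theorem coact_coassoc {m : ℕ} {I : ℕ → ℕ} (hI : Mon m I) (n : ℕ) :
    δ p 1 (coact p m I n) = ph p m I 0 (coact p m I n) := by
  by_cases hn : n < m
  · rw [coact_eq hn, map_sum, map_sum]
    have h1 : ∀ x ∈ antidiagonal (n + 1), δ p 1 (yy p I n x.1 * tt p 1 x.2 ^ p ^ (x.1 + I n)) =
        ∑ y ∈ antidiagonal x.2, yy p I n x.1 * (tt p 1 y.1 ^ p ^ (x.1 + I n) *
          tt p 2 y.2 ^ p ^ (x.1 + y.1 + I n)) := by
      intro x _
      have hy : δ p 1 (yy p I n x.1) = yy p I n x.1 := by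
        rw [yy]
        split_ifs with h0
        · rw [map_one]
        · rw [map_pow, δ_X, if_pos (by simp)]
      rw [map_mul, map_pow, hy, δ_tt, pow_sum, Finset.mul_sum]
      refine Finset.sum_congr rfl fun y _ => ?_
      rw [mul_pow, ← pow_mul, ← pow_add, show y.1 + (x.1 + I n) = x.1 + y.1 + I n by omega]
    have h2 : ∀ x ∈ antidiagonal (n + 1), ph p m I 0 (yy p I n x.1 * tt p 1 x.2 ^ p ^ (x.1 + I n)) =
        ∑ y ∈ antidiagonal x.1, yy p I n y.1 * (tt p 1 y.2 ^ p ^ (y.1 + I n) *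
          tt p 2 x.2 ^ p ^ (y.1 + y.2 + I n)) := by
      intro x hx
      rw [HasAntidiagonal.mem_antidiagonal] at hx
      rw [map_mul, map_pow, ph_tt _ _ _ (by omega), ph_yy hI hn (by omega), Finset.sum_mul]
      refine Finset.sum_congr rfl fun y hy => ?_
      rw [HasAntidiagonal.mem_antidiagonal.1 hy]
      ring
    rw [Finset.sum_congr rfl h1, Finset.sum_congr rfl h2]
    exact (sum_triple (n + 1) fun a b c => yy p I n a * (tt p 1 b ^ p ^ (a + I n) *
      tt p 2 c ^ p ^ (a + b + I n))).symm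
  · rw [coact, if_neg hn, map_zero, map_zero]

theorem ph_ph {m : ℕ} {I : ℕ → ℕ} (hI : Mon m I) {i j : ℕ} (h : i ≤ j) (f : KP p) :
    ph p m I (j + 1) (ph p m I i f) = ph p m I i (ph p m I j f) := by
  cases i with
  | succ i =>
    obtain ⟨j, rfl⟩ : ∃ j', j = j' + 1 := ⟨j - 1, by omega⟩
    exact δ_δ h f
  | zero =>
    have : ((ph p m I (j + 1)).comp (ph p m I 0)) = (ph p m I 0).comp (ph p m I j) := by
      refine MvPolynomial.algHom_ext fun x => ?_
      obtain ⟨l, n⟩ := x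
      simp only [AlgHom.comp_apply]
      cases l with
      | zero =>
        rw [ph_zero_X, if_pos rfl]
        cases j with
        | zero =>
          rw [ph_zero_X, if_pos rfl]
          exact coact_coassoc hI n
        | succ j =>
          rw [ph_succ, ph_succ, δ_X, if_pos (by dsimp only; omega), ph_zero_X, if_pos rfl]
          rw [coact]
          split_ifs with hn
          · rw [map_sum]
            refine Finset.sum_congr rfl fun y _ => ?_
            rw [map_mul, map_pow, δ_tt_lt (by omega)]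
            congr 1
            rw [yy]
            split_ifs with h0
            · rw [map_one]
            · rw [map_pow, δ_X, if_pos (by dsimp only; omega)]
          · rw [map_zero]
      | succ l =>
        have hx : (X (l + 1, n) : KP p) = tt p (l + 1) (n + 1) := (if_neg (by omega)).symm
        rw [hx, ph_tt _ _ _ (by omega)]
        cases j with
        | zero => rw [ph_succ, δ_tt_gt (by omega), ph_tt _ _ _ (by omega), ph_tt _ _ _ (by omega)]
        | succ j =>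
          rw [ph_succ, ph_succ]
          rcases lt_trichotomy l j with hj | hj | hj
          · rw [δ_tt_lt (by omega), δ_tt_lt (by omega), ph_tt _ _ _ (by omega)]
          · subst hj
            rw [δ_tt, δ_tt, map_sum]
            refine Finset.sum_congr rfl fun y _ => ?_
            rw [map_mul, map_pow, ph_tt _ _ _ (by omega), ph_tt _ _ _ (by omega)]
          · rw [δ_tt_gt (by omega), δ_tt_gt (by omega), ph_tt _ _ _ (by omega)]
    exact DFunLike.congr_fun this f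

/-- The degree of `t_c`. -/
def nw (p c : ℕ) : ℕ := ∑ i ∈ range c, p ^ i

omit [Fact p.Prime] in
theorem nw_add (a b : ℕ) : nw p (a + b) = nw p a + p ^ a * nw p b := by
  rw [nw, nw, nw, Finset.sum_range_add, Finset.mul_sum]
  simp only [pow_add]

/-- The weights. -/
def w (p : ℕ) (I : ℕ → ℕ) (x : ℕ × ℕ) : ℤ :=
  if x.1 = 0 then (p : ℤ) ^ I x.2 * wt p x.2 else wt p x.2

/-- The variables of `C^s`. -/
def V (m s : ℕ) : Set (ℕ × ℕ) := {x | x.1 ≤ s ∧ (x.1 = 0 → x.2 < m)}

omit [Fact p.Prime] in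
theorem hom_tt (I : ℕ → ℕ) {j : ℕ} (hj : j ≠ 0) (n : ℕ) :
    IsWeightedHomogeneous (w p I) (tt p j n) (nw p n : ℤ) := by
  cases n with
  | zero => simpa [tt, nw] using isWeightedHomogeneous_one (R := ZMod p) (w p I)
  | succ n =>
    rw [show tt p j (n + 1) = X (j, n) from if_neg (by omega)]
    have h := isWeightedHomogeneous_X (ZMod p) (w p I) (j, n)
    rwa [w, if_neg hj] at h

omit [Fact p.Prime] in
theorem hom_yy {m : ℕ} {I : ℕ → ℕ} (hI : Mon m I) {n c : ℕ} (hn : n < m) (hc : c ≤ n + 1) :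
    IsWeightedHomogeneous (w p I) (yy p I n c) ((p : ℤ) ^ I n * nw p c) := by
  cases c with
  | zero => simpa [yy, nw] using isWeightedHomogeneous_one (R := ZMod p) (w p I)
  | succ c =>
    rw [yy, if_neg (by omega), Nat.add_sub_cancel]
    have h := (isWeightedHomogeneous_X (ZMod p) (w p I) (0, c)).pow (p ^ (I n - I c))
    rw [w, if_pos rfl, nsmul_eq_mul] at h
    have h1 := hI c n (by omega) hn
    have h2 : ((p ^ (I n - I c) : ℕ) : ℤ) * ((p : ℤ) ^ I c * wt p c) =
        (p : ℤ) ^ I n * nw p (c + 1) := by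
      rw [Nat.cast_pow, ← mul_assoc, ← pow_add, show I n - I c + I c = I n by omega]
      rfl
    rwa [h2] at h

omit [Fact p.Prime] in
theorem hom_coact {m : ℕ} {I : ℕ → ℕ} (hI : Mon m I) (n : ℕ) :
    IsWeightedHomogeneous (w p I) (coact p m I n) ((p : ℤ) ^ I n * wt p n) := by
  rw [coact]
  split_ifs with hn
  · refine IsWeightedHomogeneous.sum _ _ _ fun x hx => ?_
    rw [HasAntidiagonal.mem_antidiagonal] at hx
    have h := (hom_yy (p := p) hI hn (c := x.1) (by omega)).mul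
      ((hom_tt (p := p) I (j := 1) (by omega) x.2).pow (p ^ (x.1 + I n)))
    have h2 : (p : ℤ) ^ I n * nw p x.1 + (p ^ (x.1 + I n) : ℕ) • (nw p x.2 : ℤ) =
        (p : ℤ) ^ I n * wt p n := by
      have : (wt p n : ℤ) = nw p x.1 + p ^ x.1 * nw p x.2 := by
        have h3 := nw_add (p := p) x.1 x.2
        rw [hx] at h3
        change ((nw p (n + 1) : ℕ) : ℤ) = _
        rw [h3]; push_cast; ring
      rw [this, nsmul_eq_mul]
      push_cast
      ring
    rwa [h2] at h
  · exact isWeightedHomogeneous_zero _ _ _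

omit [Fact p.Prime] in
theorem hom_cop (I : ℕ → ℕ) {i : ℕ} (hi : i ≠ 0) (n : ℕ) :
    IsWeightedHomogeneous (w p I) (∑ x ∈ antidiagonal n, tt p i x.1 * tt p (i + 1) x.2 ^ p ^ x.1)
      (nw p n : ℤ) := by
  refine IsWeightedHomogeneous.sum _ _ _ fun x hx => ?_
  rw [HasAntidiagonal.mem_antidiagonal] at hx
  have h := (hom_tt (p := p) I hi x.1).mul
    ((hom_tt (p := p) I (j := i + 1) (by omega) x.2).pow (p ^ x.1))
  have h2 : (nw p x.1 : ℤ) + (p ^ x.1 : ℕ) • (nw p x.2 : ℤ) = nw p n := by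
    rw [← hx, nw_add, nsmul_eq_mul]; push_cast; ring
  rwa [h2] at h

theorem X_mem {σ : Type*} {V : Set σ} {x : σ} (h : x ∈ V) :
    (X x : MvPolynomial σ (ZMod p)) ∈ supported (ZMod p) V := X_mem_supported.2 h

theorem tt_mem {V : Set (ℕ × ℕ)} {j : ℕ} (h : ∀ n, (j, n) ∈ V) (n : ℕ) :
    tt p j n ∈ supported (ZMod p) V := by
  rw [tt]
  split_ifs
  · exact one_mem _
  · exact X_mem (h _)

theorem ph_mem (m s : ℕ) (I : ℕ → ℕ) (i : ℕ) (hi : i ≤ s + 1) {x : ℕ × ℕ} (hx : x ∈ V m s) :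
    ph p m I i (X x) ∈ supported (ZMod p) (V m (s + 1)) := by
  obtain ⟨l, n⟩ := x
  obtain ⟨h1, h2⟩ := hx
  dsimp only at h1 h2
  have hV : ∀ j, 0 < j → j ≤ s + 1 → ∀ n, (j, n) ∈ V m (s + 1) := fun j h0 hj n =>
    ⟨hj, fun h => absurd h (by dsimp only; omega)⟩
  cases i with
  | zero =>
    rw [ph_zero_X]
    split_ifs with hl
    · dsimp only at hl ⊢
      rw [coact_eq (h2 hl)]
      refine supported_sum _ _ fun y hy => mul_mem ?_ (pow_mem (tt_mem (hV 1 (by omega) (by omega)) _) _)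
      rw [HasAntidiagonal.mem_antidiagonal] at hy
      rw [yy]
      split_ifs with h0
      · exact one_mem _
      · refine pow_mem (X_mem (?_ : (0, y.1 - 1) ∈ V m (s + 1))) _
        exact ⟨Nat.zero_le _, fun _ => by have := h2 hl; dsimp only; omega⟩
    · dsimp only at hl ⊢
      exact X_mem (hV _ (by omega) (by omega) _)
  | succ i =>
    rw [ph_succ, δ_X]
    dsimp only
    split_ifs with h3 h4
    · exact X_mem ⟨by dsimp only; omega, h2⟩
    · rw [cop_eq]
      exact supported_sum _ _ fun y _ => mul_mem (tt_mem (hV _ (by omega) (by omega)) _)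
        (pow_mem (tt_mem (hV _ (by omega) (by omega)) _) _)
    · exact X_mem (hV _ (by omega) (by omega) _)

theorem hom_ph {m : ℕ} {I : ℕ → ℕ} (hI : Mon m I) (i : ℕ) (x : ℕ × ℕ) :
    IsWeightedHomogeneous (w p I) (ph p m I i (X x)) (w p I x) := by
  obtain ⟨l, n⟩ := x
  cases i with
  | zero =>
    rw [ph_zero_X, w]
    split_ifs with hl
    · exact hom_coact hI n
    · dsimp only at hl ⊢
      have h := isWeightedHomogeneous_X (ZMod p) (w p I) (l + 1, n)
      rwa [w, if_neg (by dsimp only; omega)] at h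
  | succ i =>
    rw [ph_succ, δ_X]
    dsimp only
    split_ifs with h3 h4
    · exact isWeightedHomogeneous_X _ _ _
    · rw [cop_eq, w, if_neg (by dsimp only; omega)]
      exact hom_cop I (by omega) _
    · rw [w, if_neg (by dsimp only; omega)]
      have h := isWeightedHomogeneous_X (ZMod p) (w p I) (l + 1, n)
      rwa [w, if_neg (by dsimp only; omega)] at h

/-- Cochains of degree `(s, N)` with coefficients in `D_I`. -/
noncomputable def KK (p m : ℕ) (I : ℕ → ℕ) (s : ℕ) (N : ℤ) : Submodule (ZMod p) (KP p) :=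
  weightedHomogeneousSubmodule (ZMod p) (w p I) N ⊓
    Subalgebra.toSubmodule (supported (ZMod p) (V m s))

theorem mem_KK {m : ℕ} {I : ℕ → ℕ} {s : ℕ} {N : ℤ} {f : KP p} :
    f ∈ KK p m I s N ↔ IsWeightedHomogeneous (w p I) f N ∧ f ∈ supported (ZMod p) (V m s) := Iff.rfl

theorem ph_mem_KK {m : ℕ} {I : ℕ → ℕ} (hI : Mon m I) {s : ℕ} {N : ℤ} {i : ℕ} (hi : i ≤ s + 1)
    {f : KP p} (hf : f ∈ KK p m I s N) : ph p m I i f ∈ KK p m I (s + 1) N := by
  rw [mem_KK] at hf ⊢
  exact ⟨homogeneous_map _ (fun x _ => hom_ph hI i x) hf.2 hf.1,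
    supported_map _ (fun x hx => ph_mem m s I i hi hx) hf.2⟩

theorem KK_mono {m : ℕ} {I : ℕ → ℕ} {s s' : ℕ} (h : s ≤ s') {N : ℤ} {f : KP p}
    (hf : f ∈ KK p m I s N) : f ∈ KK p m I s' N :=
  ⟨hf.1, supported_mono (show V m s ⊆ V m s' from fun _ hx => ⟨hx.1.trans h, hx.2⟩) hf.2⟩

theorem ph_of_lt {m s : ℕ} {I : ℕ → ℕ} {i : ℕ} (hi : s < i) {f : KP p}
    (hf : f ∈ supported (ZMod p) (V m s)) : ph p m I i f = f := by
  have := eqOn_supported (ph p m I i) (AlgHom.id _ _) (V := V m s) (fun x hx => by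
    obtain ⟨j, rfl⟩ : ∃ j, i = j + 1 := ⟨i - 1, by omega⟩
    rw [ph_succ, δ_X, if_pos (by have := hx.1; omega)]
    rfl) hf
  exact this

/-- The differential. -/
noncomputable def dl (p m : ℕ) (I : ℕ → ℕ) (s : ℕ) : KP p →ₗ[ZMod p] KP p :=
  ∑ i ∈ range (s + 1), (-1 : ZMod p) ^ i • (ph p m I i).toLinearMap +
    (-1 : ZMod p) ^ (s + 1) • LinearMap.id

theorem dl_eq {m s : ℕ} {I : ℕ → ℕ} {f : KP p} (hf : f ∈ supported (ZMod p) (V m s)) :
    dl p m I s f = ∑ i ∈ range (s + 2), (-1 : ZMod p) ^ i • ph p m I i f := by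
  rw [dl, Finset.sum_range_succ _ (s + 1), ph_of_lt (Nat.lt_succ_self s) hf]
  simp only [LinearMap.add_apply, LinearMap.sum_apply, LinearMap.smul_apply, LinearMap.id_apply]
  rfl

theorem alt_sum {M : Type*} [AddCommGroup M] [Module (ZMod p) M] (n : ℕ) (F : ℕ → ℕ → M)
    (hF : ∀ i j, i ≤ j → F (j + 1) i = F i j) :
    ∑ j ∈ range (n + 1), ∑ i ∈ range n, (-1 : ZMod p) ^ (i + j) • F j i = 0 := by
  rw [← Finset.sum_product']
  refine Finset.sum_involution (fun x _ => if x.1 ≤ x.2 then (x.2 + 1, x.1) else (x.2, x.1 - 1))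
    ?_ ?_ ?_ ?_
  · rintro ⟨j, i⟩ hx
    dsimp only
    split_ifs with h
    · dsimp only
      rw [hF j i h, ← add_smul]
      have : (-1 : ZMod p) ^ (i + j) + (-1 : ZMod p) ^ (j + (i + 1)) = 0 := by ring
      rw [this, zero_smul]
    · dsimp only
      obtain ⟨j, rfl⟩ : ∃ j', j = j' + 1 := ⟨j - 1, by omega⟩
      rw [Nat.add_sub_cancel, hF i j (by omega), ← add_smul]
      have : (-1 : ZMod p) ^ (i + (j + 1)) + (-1 : ZMod p) ^ (j + i) = 0 := by ring
      rw [this, zero_smul]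
  · rintro ⟨j, i⟩ hx _
    dsimp only
    split_ifs with h
    · intro h'
      rw [Prod.mk.injEq] at h'
      omega
    · intro h'
      rw [Prod.mk.injEq] at h'
      omega
  · rintro ⟨j, i⟩ hx
    rw [mem_product, mem_range, mem_range] at hx ⊢
    dsimp only at hx
    split_ifs with h
    · dsimp only at h ⊢; omega
    · dsimp only at h ⊢; omega
  · rintro ⟨j, i⟩ hx
    dsimp only
    split_ifs with h h' h'
    · dsimp only at h'; omega
    · simp
    · dsimp only at h' ⊢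
      rw [Prod.mk.injEq]; omega
    · dsimp only at h'; omega

theorem dl_dl {m : ℕ} {I : ℕ → ℕ} (hI : Mon m I) {s : ℕ} {N : ℤ} {f : KP p}
    (hf : f ∈ KK p m I s N) : dl p m I (s + 1) (dl p m I s f) = 0 := by
  have h1 : dl p m I s f ∈ supported (ZMod p) (V m (s + 1)) := by
    rw [dl_eq hf.2]
    exact supported_sum _ _ fun i hi => Subalgebra.smul_mem _
      (ph_mem_KK hI (by rw [mem_range] at hi; omega) hf).2 _
  rw [dl_eq h1, dl_eq hf.2]
  rw [← alt_sum (p := p) (s + 2) (fun j i => ph p m I j (ph p m I i f)) fun i j h => ph_ph hI h f]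
  refine Finset.sum_congr rfl fun j _ => ?_
  rw [map_sum, Finset.smul_sum]
  refine Finset.sum_congr rfl fun i _ => ?_
  rw [map_smul, smul_smul, ← pow_add, add_comm j i]

/-- The complex of `D_I`. -/
noncomputable def CC (p m : ℕ) [Fact p.Prime] (I : ℕ → ℕ) (hI : Mon m I) : Cpx (KP p) where
  K s N := (KK p m I s N).toAddSubgroup
  d s := (dl p m I s).toAddMonoidHom
  d_mem s N f hf := by
    change dl p m I s f ∈ KK p m I (s + 1) N
    rw [dl_eq hf.2]
    exact sum_mem fun i hi => Submodule.smul_mem _ _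
      (ph_mem_KK hI (by rw [mem_range] at hi; omega) hf)
  d_d s N f hf := dl_dl hI hf

end Vale.Agent.P257.X
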