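import Vale.Agent.P257.X.Per

/-! The cones of `b_(1,i)` on the tower -/

namespace Vale.Agent.P257.X

open MvPolynomial Finset Vale.Agent.P257.Q.PC

variable {p : ℕ} [Fact p.Prime]

omit [Fact p.Prime] in
theorem choose_id (hp : p.Prime) {i : ℕ} (h0 : 0 < i) (h1 : i < p) :
    (p.choose i / p) * i = (p - 1).choose (i - 1) := by
  obtain ⟨c, hc⟩ := hp.dvd_choose_self h0.ne' h1
  rw [hc, Nat.mul_div_cancel_left _ hp.pos]
  have h2 := Nat.add_one_mul_choose_eq (p - 1) (i - 1)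
  rw [Nat.sub_add_cancel hp.one_le, Nat.sub_add_cancel h0, hc, mul_assoc] at h2
  exact (Nat.eq_of_mul_eq_mul_left hp.pos h2).symm

/-- The derivative of `LL`. -/
theorem pderiv_LL (n : ℕ × ℕ) {x y : KP p} (hx : pderiv n x = 1) (hy : pderiv n y = 0) :
    pderiv n (LL p x y) = (x + y) ^ (p - 1) - x ^ (p - 1) := by
  have hp := (Fact.out : p.Prime)
  rw [LL, map_sum]
  have h1 : ∀ i ∈ Ioo 0 p, pderiv n (((p.choose i / p : ℕ) : KP p) * x ^ i * y ^ (p - i)) =
      x ^ (i - 1) * y ^ (p - 1 - (i - 1)) * ((p - 1).choose (i - 1) : ℕ) := by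
    intro i hi
    rw [mem_Ioo] at hi
    have h2 : pderiv n ((p.choose i / p : ℕ) : KP p) = 0 := Derivation.map_natCast _ _
    rw [pderiv_mul, pderiv_mul, h2, pderiv_pow, pderiv_pow, hx, hy, ← choose_id hp hi.1 hi.2,
      show p - 1 - (i - 1) = p - i by omega, Nat.cast_mul]
    ring
  rw [sum_congr rfl h1]
  have h2 : ∑ i ∈ Ioo 0 p, x ^ (i - 1) * y ^ (p - 1 - (i - 1)) * ((p - 1).choose (i - 1) : ℕ) =
      ∑ i ∈ range (p - 1), x ^ i * y ^ (p - 1 - i) * ((p - 1).choose i : ℕ) := by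
    refine Finset.sum_nbij' (fun i => i - 1) (fun i => i + 1) ?_ ?_ ?_ ?_ ?_
    · intro i hi; rw [mem_Ioo] at hi; rw [mem_range]; omega
    · intro i hi; rw [mem_range] at hi; rw [mem_Ioo]; omega
    · intro i hi; rw [mem_Ioo] at hi; omega
    · intro i hi; omega
    · intro i _; rfl
  rw [h2, add_pow, Finset.sum_range_succ]
  simp

theorem ph_zero_y {m : ℕ} {I : ℕ → ℕ} (hm : 0 < m) :
    ph p m I 0 (X (0, 0)) = X (0, 0) + tau p (I 0) 1 := by
  rw [ph_zero_X, if_pos rfl, coact_eq hm, Finset.Nat.sum_antidiagonal_eq_sum_range_succ_mk]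
  simp [tt, yy, tau, Finset.sum_range_succ]
  ring

omit [Fact p.Prime] in
theorem ph_succ_y {m : ℕ} {I : ℕ → ℕ} (i : ℕ) :
    ph p m I (i + 1) (X (0, 0)) = X (0, 0) := by
  rw [ph_succ, δ_X, if_pos (by dsimp only; omega)]

theorem dl_zero_pow {m : ℕ} {I : ℕ → ℕ} (hm : 0 < m) (k : ℕ) :
    dl p m I 0 (X (0, 0) ^ k) = (X (0, 0) + tau p (I 0) 1) ^ k - X (0, 0) ^ k := by
  rw [dl_eq (pow_mem (X_mem (zero_mem_V hm)) k)]
  simp only [Finset.sum_range_succ, Finset.sum_range_zero, pow_zero, one_smul,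
    pow_one, zero_add, neg_smul, map_pow]
  rw [ph_zero_y hm, ph_succ_y]
  ring

theorem dl_one_LL {m : ℕ} {I : ℕ → ℕ} (hm : 0 < m) :
    dl p m I 1 (LL p (X (0, 0)) (tau p (I 0) 1)) = bb p (I 0) := by
  have hp := (Fact.out : p.Prime)
  rw [dl_eq (LL_mem (X_mem (zero_mem_V hm)) (tau_mem _ ⟨le_rfl, by norm_num⟩))]
  simp only [Finset.sum_range_succ, Finset.sum_range_zero, ph_LL]
  rw [ph_zero_y hm, ph_succ_y, ph_succ_y, ph_tau_gt _ (by norm_num), ph_tau_self _ (by norm_num),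
    ph_tau_lt _ (by norm_num), bb]
  have := LL_cocycle p hp (X (0, 0)) (tau p (I 0) 1) (tau p (I 0) 2)
  simp only [Nat.reduceAdd, pow_zero, one_smul, smul_eq_C_mul, C_neg, C_1, C_pow]
  linear_combination -this

theorem per_H {m : ℕ} {I : ℕ → ℕ} (hI : Mon m I) (h : Adm m I 0) (s : ℕ) (N : ℤ) (z : KP p)
    (hz : ((CC p m I hI).Ker (der hI h)).Z s N z) :
    ∃ g ∈ (CC p m I hI).K s (N + (p - 1 : ℤ) * ((p : ℤ) ^ I 0 * wt p 0)),
      ∃ u ∈ (CC p m I hI).K (s + 1) (N + (p : ℤ) ^ (I 0 + 1)), (DD p 0)^[p - 1] g = z ∧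
        DD p 0 u = (CC p m I hI).d s g ∧ (CC p m I hI).d (s + 1) u = bet p m I (I 0) z := by
  have hp := (Fact.out : p.Prime)
  obtain ⟨hzK, hzd⟩ := hz
  obtain ⟨hzK, hzD⟩ := (Cpx.mem_ker _).1 hzK
  rw [mem_CC] at hzK
  have hzD' : pderiv ((0, 0) : ℕ × ℕ) z = 0 := hzD
  have hzd' : dl p m I s z = 0 := hzd
  have hm := h.1
  have hy : (X (0, 0) : KP p) ∈ supported (ZMod p) (V m 0) := X_mem (zero_mem_V hm)
  have hy1 : (X (0, 0) : KP p) ∈ supported (ZMod p) (V m 1) := X_mem (zero_mem_V hm)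
  have hL : LL p (X (0, 0)) (tau p (I 0) 1) ∈ supported (ZMod p) (V m 1) :=
    LL_mem hy1 (tau_mem _ ⟨le_rfl, by norm_num⟩)
  have hzK' : z ∈ KK p m I s N := hzK
  have hph := ph_mem_KK hI (i := 0) (Nat.zero_le _) hzK'
  refine ⟨-(X (0, 0) ^ (p - 1) * z), ?_, -(LL p (X (0, 0)) (tau p (I 0) 1) * ph p m I 0 z), ?_,
    ?_, ?_, ?_⟩
  · refine (mem_CC hI).2 ⟨?_, ?_⟩
    · have h1 := ((isWeightedHomogeneous_X (ZMod p) (w p I) (0, 0)).pow (p - 1)).mul hzK.1
      rw [w, if_pos rfl] at h1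
      have h2 : (p - 1) • ((p : ℤ) ^ I 0 * (wt p 0 : ℤ)) + N =
          N + (p - 1 : ℤ) * ((p : ℤ) ^ I 0 * wt p 0) := by
        rw [nsmul_eq_mul, Nat.cast_sub hp.one_le]
        push_cast
        ring
      dsimp only at h1
      rw [h2] at h1
      exact h1.neg
    · exact neg_mem (mul_mem (pow_mem (X_mem (zero_mem_V h.1)) _) hzK.2)
  · refine (mem_CC hI).2 ⟨?_, ?_⟩
    · have h1 := isWeightedHomogeneous_X (ZMod p) (w p I) (0, 0)
      have h2 : w p I (0, 0) = (p : ℤ) ^ I 0 := by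
        rw [w, if_pos rfl, wt]; simp
      rw [h2] at h1
      have h3 := (LL_hom h1 (tau_hom I (I 0) (j := 1) (by norm_num))).mul hph.1
      have h4 : (p : ℤ) * (p : ℤ) ^ I 0 + N = N + (p : ℤ) ^ (I 0 + 1) := by ring
      rw [h4] at h3
      exact h3.neg
    · refine neg_mem (mul_mem ?_ hph.2)
      exact supported_mono (show V m 1 ⊆ V m (s + 1) from
        fun _ hx => ⟨hx.1.trans (by omega), hx.2⟩) hL
  · rw [DD_iter]
    have h3 : ∀ (j : ℕ) (g : KP p), (pderiv ((0, 0) : ℕ × ℕ))^[j] (-g) =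
        -(pderiv ((0, 0) : ℕ × ℕ))^[j] g := by
      intro j g
      induction j with
      | zero => rfl
      | succ j ih => rw [Function.iterate_succ_apply', ih, map_neg, Function.iterate_succ_apply']
    rw [h3, pderiv_iter_mul_pow _ hzD', ZMod.wilsons_lemma]
    simp
  · rw [CC_d, DD_apply, map_neg, map_neg, pderiv_mul, pderiv_ph h, hzD', map_zero, mul_zero,
      add_zero, pderiv_LL _ (pderiv_X_self _)]
    · have h1 := leib hI (r := 0) (pow_mem hy (p - 1)) hzK'.2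
      rw [hzd', dl_zero_pow hm] at h1
      simp only [add_zero, zero_add, pow_zero, Function.iterate_zero, id_eq,
        Function.iterate_one, mul_zero] at h1
      rw [h1]
    · rw [tau, pderiv_pow, pderiv_X_of_ne, mul_zero]
      simp
  · rw [CC_d, map_neg, bet_apply]
    have h1 := leib hI (r := 1) hL hzK'.2
    rw [hzd', dl_one_LL hm] at h1
    simp only [Function.iterate_succ_apply, Function.iterate_zero, id_eq,
      map_zero, mul_zero, add_zero] at h1
    rw [h1]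

omit [Fact p.Prime] in
theorem wt_zero : ((p : ℤ) ^ (0 : ℕ)) * wt p 0 = 1 := by rw [wt]; simp

/-- The first cone. -/
theorem cone_base {m : ℕ} {I : ℕ → ℕ} {L : List (ℕ × ℕ)} (hR : Reach m I L) (h : Adm m I 0)
    {s : ℕ} {N : ℤ} (hN : N < wt p m) (h1 : NoM p L s N)
    (h2 : ∀ s', s = s' + 1 → NoM p L s' (N - (p : ℤ) ^ I 0)) :
    ((CC p m (raise I 0) (h.mon hR.mon)).Cone (bet_op (h.mon hR.mon) (I 0))).Ex s N := by
  have hw : ((p : ℤ) ^ I 0) * wt p 0 = (p : ℤ) ^ I 0 := by rw [wt]; simp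
  have hk := (bet_op (p := p) hR.mon (I 0)).ker (der hR.mon h) (pderiv_bet h (I 0))
  have key := (der (p := p) hR.mon h).cone_ker (Fact.out : p.Prime).one_le
    (by rw [hw]; ring) hk (per_H hR.mon h) (s := s) (N := N)
    (ex_of_reach hR hN h1) (fun s' hs' => by
      rw [hw]
      have : 0 ≤ (p : ℤ) ^ I 0 := by positivity
      exact ex_of_reach hR (by omega) (h2 s' hs'))
  -- transport along the isomorphism
  have hι := iso (p := p) hR.mon h
  have hc : ∀ f, (frob (p := p) ((0, 0) : ℕ × ℕ)).toLinearMap.toAddMonoidHom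
      (bet p m (raise I 0) (I 0) f) = bet p m I (I 0)
        ((frob (p := p) ((0, 0) : ℕ × ℕ)).toLinearMap.toAddMonoidHom f) :=
    frob_bet hR.mon h (I 0)
  exact (hι.cone (bet_op (h.mon hR.mon) (I 0)) hk hc).ex_iff.1 key

theorem cone_base' {m i : ℕ} {I : ℕ → ℕ} {L : List (ℕ × ℕ)} (hR : Reach m I L) (h : Adm m I 0)
    (hi : I 0 = i) {s : ℕ} {N : ℤ} (hN : N < wt p m) (h1 : NoM p L s N)
    (h2 : ∀ s', s = s' + 1 → NoM p L s' (N - (p : ℤ) ^ i)) :
    ((CC p m (raise I 0) (h.mon hR.mon)).Cone (bet_op (h.mon hR.mon) i)).Ex s N := by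
  subst hi
  exact cone_base hR h hN h1 h2

/-- The thresholds `I` are reached; `L` is the list of all letters except `(0, i)`. -/
inductive CReach (m i : ℕ) : (ℕ → ℕ) → List (ℕ × ℕ) → Prop
  | base {I L} (h : Adm m I 0) (hi : I 0 = i) : Reach m I L → CReach m i (raise I 0) L
  | step {I L} (n : ℕ) (h : Adm m I n) : CReach m i I L → CReach m i (raise I n) ((n, I n) :: L)

theorem CReach.reach {m i : ℕ} {I : ℕ → ℕ} {L : List (ℕ × ℕ)} (h : CReach m i I L) :
    ∃ L', Reach m I L' ∧ ∀ x, x ∈ L' ↔ x ∈ L ∨ x = (0, i) := by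
  induction h with
  | base h hi hR =>
    refine ⟨_, hR.step 0 h, fun x => ?_⟩
    rw [List.mem_cons, hi, or_comm]
  | @step I L n h hC ih =>
    obtain ⟨L', h1, h2⟩ := ih
    refine ⟨_, h1.step n h, fun x => ?_⟩
    rw [List.mem_cons, List.mem_cons, h2, or_assoc]

theorem CReach.mon {m i : ℕ} {I : ℕ → ℕ} {L : List (ℕ × ℕ)} (h : CReach m i I L) : Mon m I := by
  obtain ⟨L', h1, -⟩ := h.reach
  exact h1.mon

theorem CReach.nodup {m i : ℕ} {I : ℕ → ℕ} {L : List (ℕ × ℕ)} (h : CReach m i I L) :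
    L.Nodup ∧ (0, i) ∉ L := by
  induction h with
  | base h hi hR =>
    refine ⟨hR.nodup, fun h1 => ?_⟩
    have := hR.lt _ h1
    dsimp only at this
    omega
  | @step I L n h hC ih =>
    obtain ⟨L', h1, h2⟩ := hC.reach
    refine ⟨List.nodup_cons.2 ⟨fun h3 => ?_, ih.1⟩, fun h3 => ?_⟩
    · exact absurd (h1.lt _ ((h2 _).2 (Or.inl h3))) (lt_irrefl _)
    · rw [List.mem_cons] at h3
      rcases h3 with h3 | h3
      · rw [Prod.mk.injEq] at h3
        obtain ⟨rfl, rfl⟩ := h3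
        exact absurd (h1.lt _ ((h2 _).2 (Or.inr rfl))) (lt_irrefl _)
      · exact ih.2 h3

theorem cone_of_creach {m i : ℕ} {I : ℕ → ℕ} {L : List (ℕ × ℕ)} (h : CReach m i I L) :
    ∀ {s : ℕ} {N : ℤ}, N < wt p m → NoM p L s N →
    (∀ s', s = s' + 1 → NoM p L s' (N - (p : ℤ) ^ i)) →
    ((CC p m I h.mon).Cone (bet_op h.mon i)).Ex s N := by
  induction h with
  | base h hi hR =>
    intro s N hN h1 h2
    exact cone_base' hR h hi hN h1 h2
  | @step I L n h hC ih =>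
    intro s N hN h1 h2
    refine (step_bet hC.mon h i).cone (bet_op hC.mon i) (bet_op _ i)
      (Fact.out : p.Prime).one_le s N ?_
    intro s' ε j hε hs
    have h0 : 0 ≤ ((ε : ℤ) + p * j) * ((p : ℤ) ^ I n * wt p n) := by positivity
    refine ih (by omega) (h1.cons hε hs) ?_
    intro s'' hs''
    have h3 := (h2 (s - 1) (by omega)).cons hε (show s - 1 = s'' + ε + 2 * j by omega)
    rwa [sub_right_comm] at h3

theorem JJ_self (m i : ℕ) (hm : 0 < m) : JJ m i (m - 1) 0 = i := by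
  rw [JJ, if_pos hm, if_neg (by omega)]

theorem creach_JJ_succ (m i : ℕ) (hm : 0 < m) : ∃ L, CReach m i (JJ m (i + 1) 0) L := by
  obtain ⟨L, hL⟩ := reach_JJ m i (m - 1) (by omega)
  have h1 := JJ_raise (i := i) (show m - 1 < m by omega)
  have h2 := JJ_adm (i := i) (show m - 1 < m by omega)
  rw [Nat.sub_self] at h1 h2
  rw [← JJ_next, show JJ m i m = JJ m i (m - 1 + 1) by rw [Nat.sub_add_cancel hm], ← h1]
  exact ⟨L, CReach.base h2 (JJ_self m i hm) hL⟩

theorem creach_JJ (m i : ℕ) (hm : 0 < m) (j k : ℕ) (hk : k ≤ m) :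
    ∃ L, CReach m i (JJ m (i + 1 + j) k) L := by
  induction j generalizing k with
  | zero =>
    induction k with
    | zero => exact creach_JJ_succ m i hm
    | succ k ih =>
      obtain ⟨L, hL⟩ := ih (by omega)
      rw [← JJ_raise hk]
      exact ⟨_, hL.step _ (JJ_adm hk)⟩
  | succ j ih' =>
    induction k with
    | zero =>
      rw [← add_assoc, ← JJ_next]
      exact ih' m le_rfl
    | succ k ih =>
      obtain ⟨L, hL⟩ := ih (by omega)
      rw [← JJ_raise hk]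
      exact ⟨_, hL.step _ (JJ_adm hk)⟩

end Vale.Agent.P257.X
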