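import Vale.Agent.P257.X.Fields
import Vale.Agent.P257.X.TowerOut
import Vale.Agent.P257.N.Num
import Vale.Agent.P257.SG.Small
import Vale.Agent.P257.G.G2fin

/-! All the facts on the cobar complex of `P`, for `p ≥ 11`. -/

namespace Vale.Agent.P257.X

theorem pfacts {p : ℕ} [Fact p.Prime] (hp : 11 ≤ p) : Q.PC.PFacts p :=
  pfacts_of hp (towerOut p) (N.num hp) (SG.small hp) (G.G2 hp)

end Vale.Agent.P257.X
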