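import Vale.Agent.P257.X.Reach

/-! The operator `b_(1,i)` -/

namespace Vale.Agent.P257.X

open MvPolynomial Finset Vale.Agent.P257.Q.PC

variable {p : ℕ} [Fact p.Prime]

section LL

variable {R : Type*} [CommRing R]

/-- `((x + y) ^ p - x ^ p - y ^ p) / p` -/
def LL (p : ℕ) (x y : R) : R := ∑ i ∈ Ioo 0 p, ((p.choose i / p : ℕ) : R) * x ^ i * y ^ (p - i)

theorem p_LL (p : ℕ) (hp : p.Prime) (x y : R) :
    (p : R) * LL p x y = (x + y) ^ p - x ^ p - y ^ p := by
  have h1 : range (p + 1) = insert 0 (insert p (Ioo 0 p)) := by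
    ext i
    have := hp.pos
    simp only [mem_range, mem_insert, mem_Ioo]
    omega
  rw [add_pow, h1, sum_insert, sum_insert, LL, mul_sum]
  · simp only [pow_zero, Nat.sub_zero, Nat.choose_zero_right, Nat.cast_one, Nat.sub_self,
      Nat.choose_self, mul_one, one_mul]
    have h2 : ∀ i ∈ Ioo 0 p, (p : R) * (((p.choose i / p : ℕ) : R) * x ^ i * y ^ (p - i)) =
        x ^ i * y ^ (p - i) * (p.choose i : ℕ) := by
      intro i hi
      rw [mem_Ioo] at hi
      have h3 : ((p.choose i : ℕ) : R) = (p : R) * ((p.choose i / p : ℕ) : R) := by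
        rw [← Nat.cast_mul, Nat.mul_div_cancel' (hp.dvd_choose_self (by omega) hi.2)]
      rw [h3]; ring
    rw [sum_congr rfl h2]
    ring
  · simp
  · have := hp.ne_zero
    simp only [mem_insert, mem_Ioo]
    omega

theorem map_LL {S : Type*} [CommRing S] (f : R →+* S) (p : ℕ) (x y : R) :
    f (LL p x y) = LL p (f x) (f y) := by
  simp only [LL, map_sum, map_mul, map_pow, map_natCast]

/-- The cocycle identity. -/
theorem LL_cocycle (p : ℕ) (hp : p.Prime) (x y z : R) :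
    LL p y z + LL p x (y + z) = LL p (x + y) z + LL p x y := by
  -- the universal case
  have h1 : LL p (X 1 : MvPolynomial (Fin 3) ℤ) (X 2) + LL p (X 0) (X 1 + X 2) =
      LL p (X 0 + X 1) (X 2) + LL p (X 0) (X 1) := by
    have h2 : ((p : ℤ) : MvPolynomial (Fin 3) ℤ) ≠ 0 := by
      rw [Int.cast_natCast]
      exact Nat.cast_ne_zero.2 hp.ne_zero
    refine mul_left_cancel₀ h2 ?_
    rw [Int.cast_natCast, mul_add, mul_add, p_LL p hp, p_LL p hp, p_LL p hp, p_LL p hp]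
    ring
  have h3 := congrArg (aeval (R := ℤ) ![x, y, z]) h1
  have h4 : ∀ a b : MvPolynomial (Fin 3) ℤ, aeval ![x, y, z] (LL p a b) =
      LL p (aeval ![x, y, z] a) (aeval ![x, y, z] b) := fun a b =>
    map_LL (aeval (R := ℤ) ![x, y, z] : _ →+* R) p a b
  simpa [h4] using h3

end LL

theorem LL_frob (x y : KP p) (k : ℕ) : LL p (x ^ p ^ k) (y ^ p ^ k) = LL p x y ^ p ^ k := by
  rw [LL, LL, pow_sum]
  refine sum_congr rfl fun i _ => ?_
  rw [mul_pow, mul_pow, ← pow_mul, ← pow_mul, ← pow_mul, ← pow_mul, mul_comm (p ^ k) i,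
    mul_comm (p ^ k) (p - i)]
  congr 2
  have h1 : ((p.choose i / p : ℕ) : KP p) = C ((p.choose i / p : ℕ) : ZMod p) :=
    (map_natCast C _).symm
  rw [h1, ← C_pow, ZMod.pow_card_pow]

/-- Leibniz -/
theorem leib {m : ℕ} {I : ℕ → ℕ} (hI : Mon m I) {r s : ℕ} {a f : KP p}
    (ha : a ∈ supported (ZMod p) (V m r)) (hf : f ∈ supported (ZMod p) (V m s)) :
    dl p m I (s + r) (a * (ph p m I 0)^[r] f) =
      dl p m I r a * (ph p m I 0)^[r + 1] f + (-1) ^ r * (a * (ph p m I 0)^[r] (dl p m I s f)) := by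
  have hs : ∀ r, (ph p m I 0)^[r] f ∈ supported (ZMod p) (V m (s + r)) := by
    intro r
    induction r with
    | zero => exact hf
    | succ r ih =>
      rw [Function.iterate_succ_apply']
      exact supported_map _ (fun x hx => ph_mem m (s + r) I 0 (by omega) hx) ih
  have h1 : ∀ r i, i ≤ r → ph p m I i ((ph p m I 0)^[r] f) = (ph p m I 0)^[r + 1] f := by
    intro r
    induction r with
    | zero =>
      intro i hi
      obtain rfl : i = 0 := by omega
      rfl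
    | succ r ih =>
      intro i hi
      cases i with
      | zero => rw [Function.iterate_succ_apply' _ (r + 1)]
      | succ i =>
        rw [Function.iterate_succ_apply', ph_ph hI (Nat.zero_le i), ih i (by omega),
          ← Function.iterate_succ_apply' (⇑(ph p m I 0)) (r + 1)]
  have h2 : ∀ r j, ph p m I (r + j) ((ph p m I 0)^[r] f) = (ph p m I 0)^[r] (ph p m I j f) := by
    intro r j
    induction r with
    | zero => rw [Nat.zero_add]; rfl
    | succ r ih =>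
      rw [Function.iterate_succ_apply', show r + 1 + j = r + j + 1 by omega, ph_ph hI (Nat.zero_le _),
        ih, ← Function.iterate_succ_apply' (⇑(ph p m I 0)) r]
  have hm : a * (ph p m I 0)^[r] f ∈ supported (ZMod p) (V m (s + r)) :=
    mul_mem (supported_mono (show V m r ⊆ V m (s + r) from
      fun _ hx => ⟨hx.1.trans (by omega), hx.2⟩) ha) (hs r)
  rw [dl_eq hm, dl_eq ha, dl_eq hf, show s + r + 2 = (r + 1) + (s + 1) by omega,
    Finset.sum_range_add, Finset.sum_range_succ _ (r + 1), ph_of_lt (Nat.lt_succ_self r) ha,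
    Finset.sum_range_succ' _ (s + 1)]
  have h3 : ∑ x ∈ range (r + 1), (-1 : ZMod p) ^ x • ph p m I x (a * (ph p m I 0)^[r] f) =
      (∑ x ∈ range (r + 1), (-1 : ZMod p) ^ x • ph p m I x a) * (ph p m I 0)^[r + 1] f := by
    rw [Finset.sum_mul]
    refine Finset.sum_congr rfl fun i hi => ?_
    rw [mem_range] at hi
    rw [map_mul, h1 r i (by omega), smul_mul_assoc]
  have h4 : ∑ x ∈ range (s + 1), (-1 : ZMod p) ^ (r + 1 + x) •
      ph p m I (r + 1 + x) (a * (ph p m I 0)^[r] f) =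
      (-1) ^ r * (a * ∑ x ∈ range (s + 1), (-1 : ZMod p) ^ (x + 1) •
        (ph p m I 0)^[r] (ph p m I (x + 1) f)) := by
    rw [Finset.mul_sum, Finset.mul_sum]
    refine Finset.sum_congr rfl fun i hi => ?_
    rw [map_mul, ph_of_lt (by omega) ha, show r + 1 + i = r + (i + 1) by omega, h2,
      pow_add, mul_smul, smul_eq_C_mul, smul_eq_C_mul, smul_eq_C_mul, C_pow, C_neg, C_1]
    ring
  have h5 : ∀ (r : ℕ) (g h : KP p), (ph p m I 0)^[r] (g + h) =
      (ph p m I 0)^[r] g + (ph p m I 0)^[r] h := by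
    intro r g h
    induction r with
    | zero => rfl
    | succ r ih => simp only [Function.iterate_succ_apply', ih, map_add]
  have h6 : ∀ (r : ℕ) (t : Finset ℕ) (g : ℕ → KP p), (ph p m I 0)^[r] (∑ i ∈ t, g i) =
      ∑ i ∈ t, (ph p m I 0)^[r] (g i) := by
    intro r t g
    induction r with
    | zero => rfl
    | succ r ih => simp only [Function.iterate_succ_apply', ih, map_sum]
  have h7 : ∀ (r : ℕ) (c : ZMod p) (g : KP p), (ph p m I 0)^[r] (c • g) =
      c • (ph p m I 0)^[r] g := by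
    intro r c g
    induction r with
    | zero => rfl
    | succ r ih => simp only [Function.iterate_succ_apply', ih, map_smul]
  rw [h3, h4, h5, h6, pow_zero, one_smul]
  simp only [h7]
  have h8 : (ph p m I 0)^[r] (ph p m I 0 f) = (ph p m I 0)^[r + 1] f :=
    (Function.iterate_succ_apply _ _ _).symm
  rw [h8, smul_eq_C_mul, C_pow, C_neg, C_1, pow_succ]
  ring

/-- `t_1 ^ (p ^ i)` in block `j`. -/
noncomputable def tau (p i j : ℕ) : KP p := X (j, 0) ^ p ^ i

/-- `b_(1,i)` in the blocks `1, 2` -/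
noncomputable def bb (p i : ℕ) : KP p := LL p (tau p i 1) (tau p i 2)

theorem tau_mem {V : Set (ℕ × ℕ)} (i : ℕ) {j : ℕ} (h : (j, 0) ∈ V) :
    tau p i j ∈ supported (ZMod p) V := pow_mem (X_mem_supported.2 h) _

theorem LL_mem {V : Set (ℕ × ℕ)} {x y : KP p} (hx : x ∈ supported (ZMod p) V)
    (hy : y ∈ supported (ZMod p) V) : LL p x y ∈ supported (ZMod p) V :=
  sum_mem fun _ _ => mul_mem (mul_mem (natCast_mem _ _) (pow_mem hx _)) (pow_mem hy _)

theorem LL_hom {w : ℕ × ℕ → ℤ} {N : ℤ} {x y : KP p} (hx : IsWeightedHomogeneous w x N)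
    (hy : IsWeightedHomogeneous w y N) : IsWeightedHomogeneous w (LL p x y) (p * N) := by
  refine IsWeightedHomogeneous.sum _ _ _ fun i hi => ?_
  rw [mem_Ioo] at hi
  have h1 : ((p.choose i / p : ℕ) : KP p) = C ((p.choose i / p : ℕ) : ZMod p) :=
    (map_natCast C _).symm
  have h2 := ((hx.pow i).C_mul ((p.choose i / p : ℕ) : ZMod p)).mul (hy.pow (p - i))
  rw [h1]
  have h3 : i • N + (p - i) • N = p * N := by
    rw [← add_smul, Nat.add_sub_cancel' hi.2.le, nsmul_eq_mul]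
  rwa [h3] at h2

theorem tau_hom (I : ℕ → ℕ) (i : ℕ) {j : ℕ} (hj : j ≠ 0) :
    IsWeightedHomogeneous (w p I) (tau p i j) ((p : ℤ) ^ i) := by
  have := (isWeightedHomogeneous_X (ZMod p) (w p I) (j, 0)).pow (p ^ i)
  rw [w, if_neg hj] at this
  have h1 : (p ^ i) • ((wt p (j, 0).2 : ℕ) : ℤ) = (p : ℤ) ^ i := by
    rw [wt]; simp
  rwa [h1] at this

theorem bb_mem (m : ℕ) (I : ℕ → ℕ) (i : ℕ) : bb p i ∈ KK p m I 2 ((p : ℤ) ^ (i + 1)) := by
  refine ⟨?_, LL_mem (tau_mem _ ⟨by norm_num, by norm_num⟩) (tau_mem _ ⟨by norm_num, by norm_num⟩)⟩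
  rw [pow_succ']
  exact LL_hom (tau_hom I i (by norm_num)) (tau_hom I i (by norm_num))

theorem map_tau (φ : KP p →ₐ[ZMod p] KP p) (i j : ℕ) : φ (tau p i j) = φ (X (j, 0)) ^ p ^ i :=
  map_pow _ _ _

theorem ph_tau_lt {m : ℕ} {I : ℕ → ℕ} {i j : ℕ} (k : ℕ) (h : j < i) :
    ph p m I i (tau p k j) = tau p k j := by
  obtain ⟨i, rfl⟩ : ∃ i', i = i' + 1 := ⟨i - 1, by omega⟩
  rw [map_tau, ph_succ, δ_X, if_pos h, tau]

theorem ph_tau_gt {m : ℕ} {I : ℕ → ℕ} {i j : ℕ} (k : ℕ) (h : i < j) :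
    ph p m I i (tau p k j) = tau p k (j + 1) := by
  have h1 : (X (j, 0) : KP p) = tt p j 1 := (if_neg (by omega)).symm
  have h2 : (X (j + 1, 0) : KP p) = tt p (j + 1) 1 := (if_neg (by omega)).symm
  rw [map_tau, tau, h1, h2]
  cases i with
  | zero => rw [ph_tt _ _ _ (by omega)]
  | succ i => rw [ph_succ, δ_tt_gt h]

theorem ph_tau_self {m : ℕ} {I : ℕ → ℕ} {i : ℕ} (k : ℕ) (h : i ≠ 0) :
    ph p m I i (tau p k i) = tau p k i + tau p k (i + 1) := by
  have h1 : (X (i, 0) : KP p) = tt p i 1 := (if_neg (by omega)).symm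
  have h2 : (X (i + 1, 0) : KP p) = tt p (i + 1) 1 := (if_neg (by omega)).symm
  obtain ⟨i, rfl⟩ : ∃ i', i = i' + 1 := ⟨i - 1, by omega⟩
  rw [map_tau, tau, tau, h1, h2, ph_succ, δ_tt, ← add_pow_char_pow]
  congr 1
  rw [Finset.Nat.sum_antidiagonal_eq_sum_range_succ_mk]
  simp [tt, Finset.sum_range_succ]
  ring

omit [Fact p.Prime] in
theorem ph_LL (m : ℕ) (I : ℕ → ℕ) (i : ℕ) (x y : KP p) :
    ph p m I i (LL p x y) = LL p (ph p m I i x) (ph p m I i y) :=
  map_LL (ph p m I i : KP p →+* KP p) p x y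

theorem dl_bb (m : ℕ) (I : ℕ → ℕ) (i : ℕ) : dl p m I 2 (bb p i) = 0 := by
  have hp := (Fact.out : p.Prime)
  rw [dl_eq (bb_mem m I i).2, bb]
  simp only [Finset.sum_range_succ, Finset.sum_range_zero, ph_LL]
  rw [ph_tau_gt i (by norm_num), ph_tau_gt i (by norm_num), ph_tau_self i (by norm_num),
    ph_tau_gt i (by norm_num), ph_tau_lt i (by norm_num), ph_tau_self i (by norm_num),
    ph_tau_lt i (by norm_num), ph_tau_lt i (by norm_num)]
  have := LL_cocycle p hp (tau p i 1) (tau p i 2) (tau p i 3)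
  simp only [Nat.reduceAdd, pow_zero, one_smul, smul_eq_C_mul, C_neg, C_1, C_pow]
  linear_combination this

/-- Left multiplication by `-b_(1,i)`. -/
noncomputable def bet (p m : ℕ) (I : ℕ → ℕ) (i : ℕ) : KP p →+ KP p :=
  -((AddMonoidHom.mulLeft (bb p i)).comp
    (((ph p m I 0).comp (ph p m I 0) : KP p →ₐ[ZMod p] KP p) : KP p →+ KP p))

theorem bet_apply (m : ℕ) (I : ℕ → ℕ) (i : ℕ) (f : KP p) :
    bet p m I i f = -(bb p i * ph p m I 0 (ph p m I 0 f)) := rfl

theorem bet_mem {m : ℕ} {I : ℕ → ℕ} (hI : Mon m I) (i : ℕ) {s : ℕ} {N : ℤ} {f : KP p}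
    (hf : f ∈ KK p m I s N) : bet p m I i f ∈ KK p m I (s + 2) (N + (p : ℤ) ^ (i + 1)) := by
  rw [bet_apply]
  refine neg_mem ?_
  have h1 := ph_mem_KK hI (i := 0) (Nat.zero_le _) (ph_mem_KK hI (i := 0) (Nat.zero_le _) hf)
  have h2 := KK_mono (show 2 ≤ s + 2 by omega) (bb_mem (p := p) m I i)
  rw [mem_KK] at h1 h2 ⊢
  refine ⟨?_, mul_mem h2.2 h1.2⟩
  have := h2.1.mul h1.1
  rwa [add_comm] at this

theorem bet_dl {m : ℕ} {I : ℕ → ℕ} (hI : Mon m I) (i : ℕ) {s : ℕ} {f : KP p}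
    (hf : f ∈ supported (ZMod p) (V m s)) :
    bet p m I i (dl p m I s f) = dl p m I (s + 2) (bet p m I i f) := by
  have h := leib hI (bb_mem m I i).2 hf
  rw [dl_bb, zero_mul, zero_add] at h
  rw [bet_apply, bet_apply, map_neg]
  congr 1
  have h1 : (-1 : KP p) ^ 2 = 1 := by ring
  rw [h1, one_mul] at h
  exact h.symm

theorem bet_op {m : ℕ} {I : ℕ → ℕ} (hI : Mon m I) (i : ℕ) :
    Cpx.Op (CC p m I hI) ((p : ℤ) ^ (i + 1)) (bet p m I i) where
  mem _ _ _ hf := bet_mem hI i hf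
  comm _ _ _ hf := bet_dl hI i hf.2

theorem pderiv_bb (n i : ℕ) : pderiv ((0, n) : ℕ × ℕ) (bb p i) = 0 := by
  have h1 : ∀ j, j ≠ 0 → ∀ k, pderiv ((0, n) : ℕ × ℕ) (tau p i j ^ k) = 0 := by
    intro j hj k
    rw [tau, ← pow_mul, pderiv_pow, pderiv_X_of_ne, mul_zero]
    intro h
    rw [Prod.mk.injEq] at h
    exact hj h.1
  rw [bb, LL, map_sum]
  refine Finset.sum_eq_zero fun a _ => ?_
  rw [pderiv_mul, pderiv_mul, h1 1 (by norm_num), h1 2 (by norm_num)]
  have h2 : pderiv ((0, n) : ℕ × ℕ) ((p.choose a / p : ℕ) : KP p) = 0 :=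
    Derivation.map_natCast _ _
  rw [h2]
  ring

theorem pderiv_bet {m : ℕ} {I : ℕ → ℕ} {n : ℕ} (h : Adm m I n) (i : ℕ) (f : KP p) :
    DD p n (bet p m I i f) = bet p m I i (DD p n f) := by
  rw [DD_apply, DD_apply, bet_apply, bet_apply, map_neg, pderiv_mul, pderiv_bb, zero_mul, zero_add,
    pderiv_ph h, pderiv_ph h]

theorem frob_bb (n i : ℕ) : frob (0, n) (bb p i) = bb p i := by
  have h1 : ∀ j, j ≠ 0 → frob (0, n) (tau p i j) = tau p i j := by
    intro j hj
    rw [tau, map_pow, frob_X, if_neg]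
    intro h
    rw [Prod.mk.injEq] at h
    exact hj h.1
  have h2 : frob (0, n) (bb p i) = LL p (frob (0, n) (tau p i 1)) (frob (0, n) (tau p i 2)) :=
    map_LL (frob (p := p) ((0, n) : ℕ × ℕ) : KP p →+* KP p) p _ _
  rw [h2, h1 1 (by norm_num), h1 2 (by norm_num), bb]

theorem frob_bet {m : ℕ} {I : ℕ → ℕ} (hI : Mon m I) {n : ℕ} (h : Adm m I n) (i : ℕ) (f : KP p) :
    frob (0, n) (bet p m (raise I n) i f) = bet p m I i (frob (0, n) f) := by
  rw [bet_apply, bet_apply, map_neg, map_mul, frob_bb, frob_ph hI h, frob_ph hI h]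

theorem step_bet {m : ℕ} {I : ℕ → ℕ} (hI : Mon m I) {n : ℕ} (h : Adm m I n) (i : ℕ) :
    Cpx.Step (CC p m I hI) (CC p m (raise I n) (h.mon hI)) p ((p : ℤ) ^ I n * wt p n)
      (bet p m I i) (bet p m (raise I n) i) :=
  ⟨⟨DD p n, der hI h, _, iso hI h, pderiv_bet h i, fun f => frob_bet hI h i f⟩⟩

end Vale.Agent.P257.X
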