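import Vale.Agent.P257.X.Tower
import Vale.Agent.P257.X.Iface

/-! The top of the tower, and the chain of all steps -/

namespace Vale.Agent.P257.X

open MvPolynomial Finset Vale.Agent.P257.Q.PC

variable {p : ℕ} [Fact p.Prime]

/-- The contraction: put the block `0` equal to the identity. -/
noncomputable def eta (p : ℕ) : KP p →ₐ[ZMod p] KP p :=
  aeval fun x => if x.1 = 0 then 0 else X (x.1 - 1, x.2)

omit [Fact p.Prime] in
theorem eta_X (x : ℕ × ℕ) : eta p (X x) = if x.1 = 0 then 0 else X (x.1 - 1, x.2) := aeval_X _ _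

omit [Fact p.Prime] in
theorem eta_tt (j n : ℕ) : eta p (tt p (j + 1) n) = tt p j n := by
  rw [tt, tt]
  split_ifs
  · exact map_one _
  · rw [eta_X, if_neg (by dsimp only; omega)]; rfl

theorem eta_yy {I : ℕ → ℕ} (n c : ℕ) : eta p (yy p I n c) = if c = 0 then 1 else 0 := by
  rw [yy]
  split_ifs
  · exact map_one _
  · rw [map_pow, eta_X, if_pos rfl, zero_pow (pow_ne_zero _ (Fact.out : p.Prime).ne_zero)]

omit [Fact p.Prime] in
theorem yy_zero (n c : ℕ) : yy p (fun _ => 0) n c = tt p 0 c := by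
  rw [yy, tt]
  split_ifs
  · rfl
  · rw [Nat.sub_self, pow_zero, pow_one]

/-- `η φ_0 = 1` -/
theorem eta_ph_zero_X {m : ℕ} {x : ℕ × ℕ} (hx : x.2 < m) :
    eta p (ph p m (fun _ => 0) 0 (X x)) = X x := by
  obtain ⟨l, n⟩ := x
  dsimp only at hx
  rw [ph_zero_X]
  dsimp only
  split_ifs with hl
  · rw [coact_eq hx, map_sum, Finset.sum_eq_single (0, n + 1)]
    · rw [map_mul, map_pow, eta_tt, eta_yy, if_pos rfl, one_mul]
      simp [tt, hl]
    · rintro ⟨a, b⟩ hab hne
      rw [HasAntidiagonal.mem_antidiagonal] at hab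
      dsimp only at hab
      rw [map_mul, eta_yy, if_neg, zero_mul]
      intro h0
      dsimp only at h0
      exact hne (by rw [Prod.mk.injEq]; omega)
    · intro h2
      exact absurd (HasAntidiagonal.mem_antidiagonal.2 (Nat.zero_add _)) h2
  · rw [eta_X, if_neg (by dsimp only; omega)]
    rfl

omit [Fact p.Prime] in
/-- `η φ_(j+1) = φ_j η` -/
theorem eta_ph_succ_X {m : ℕ} (j : ℕ) {x : ℕ × ℕ} (hx : x.2 < m) :
    eta p (ph p m (fun _ => 0) (j + 1) (X x)) = ph p m (fun _ => 0) j (eta p (X x)) := by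
  obtain ⟨l, n⟩ := x
  dsimp only at hx
  rw [ph_succ]
  cases l with
  | zero =>
    rw [δ_X, if_pos (by dsimp only; omega), eta_X, if_pos rfl, map_zero]
  | succ l =>
    have hX : (X (l + 1, n) : KP p) = tt p (l + 1) (n + 1) := (if_neg (by omega)).symm
    rw [hX, eta_tt]
    rcases lt_trichotomy l j with h | h | h
    · rw [δ_tt_lt (by omega), eta_tt]
      obtain ⟨j, rfl⟩ : ∃ j', j = j' + 1 := ⟨j - 1, by omega⟩
      rw [ph_succ, δ_tt_lt h]
    · subst h
      rw [δ_tt, map_sum]
      cases l with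
      | zero =>
        have hX' : tt p 0 (n + 1) = (X (0, n) : KP p) := if_neg (by omega)
        rw [hX', ph_zero_X, if_pos rfl, coact_eq hx]
        refine Finset.sum_congr rfl fun y _ => ?_
        rw [map_mul, map_pow, eta_tt, eta_tt, yy_zero, Nat.add_zero]
      | succ l =>
        rw [ph_succ, δ_tt]
        refine Finset.sum_congr rfl fun y _ => ?_
        rw [map_mul, map_pow, eta_tt, eta_tt]
    · rw [δ_tt_gt (by omega), eta_tt]
      cases j with
      | zero => rw [ph_tt _ _ _ (by omega)]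
      | succ j => rw [ph_succ, δ_tt_gt (by omega)]

theorem wt_pos (n : ℕ) : 0 < wt p n := by
  rw [wt, Finset.sum_range_succ]
  have := pow_pos (Fact.out : p.Prime).pos n
  omega

omit [Fact p.Prime] in
theorem wt_mono {a b : ℕ} (h : a ≤ b) : wt p a ≤ wt p b :=
  Finset.sum_le_sum_of_subset (Finset.range_subset_range.2 (by omega))

omit [Fact p.Prime] in
theorem w_nonneg (I : ℕ → ℕ) (x : ℕ × ℕ) : 0 ≤ w p I x := by
  rw [w]; split_ifs <;> positivity

omit [Fact p.Prime] in
theorem w_le {I : ℕ → ℕ} {f : KP p} {N : ℤ} (hf : IsWeightedHomogeneous (w p I) f N)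
    {u : ℕ × ℕ →₀ ℕ} (hu : u ∈ f.support) {x : ℕ × ℕ} (hx : x ∈ u.support) : w p I x ≤ N := by
  have h := hf (mem_support_iff.1 hu)
  rw [← h, Finsupp.weight_apply, Finsupp.sum]
  have h1 : u x • w p I x ≤ ∑ i ∈ u.support, u i • w p I i :=
    Finset.single_le_sum (f := fun i => u i • w p I i)
      (fun i _ => nsmul_nonneg (w_nonneg I i) _) hx
  refine le_trans ?_ h1
  rw [nsmul_eq_mul]
  have h2 : 1 ≤ (u x : ℤ) := by
    have := Finsupp.mem_support_iff.1 hx
    omega
  nlinarith [w_nonneg (p := p) I x]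

omit [Fact p.Prime] in
theorem weight_nonneg {I : ℕ → ℕ} {f : KP p} {N : ℤ} (hf : IsWeightedHomogeneous (w p I) f N)
    (hN : N < 0) : f = 0 := by
  by_contra h0
  obtain ⟨u, hu⟩ := exists_coeff_ne_zero h0
  have h := hf hu
  have h1 : 0 ≤ Finsupp.weight (w p I) u := by
    rw [Finsupp.weight_apply, Finsupp.sum]
    exact Finset.sum_nonneg fun i _ => nsmul_nonneg (w_nonneg I i) _
  omega

theorem ex_neg {m : ℕ} {I : ℕ → ℕ} (hI : Mon m I) (s : ℕ) {N : ℤ} (hN : N < 0) :
    (CC p m I hI).Ex s N := by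
  intro f hf
  rw [weight_nonneg hf.1.1 hN]
  exact Cpx.B.zero _ _

/-- Small degrees: only small variables. -/
theorem supp_small {m s : ℕ} {N : ℤ} (hN : N < wt p m) {I : ℕ → ℕ} {f : KP p}
    (hf : f ∈ KK p m I s N) : f ∈ supported (ZMod p) {x | x.1 ≤ s ∧ x.2 < m} := by
  rw [mem_supported_iff]
  intro u hu x hx
  have h1 := mem_supported_iff.1 hf.2 u hu x hx
  refine ⟨h1.1, ?_⟩
  by_cases h0 : x.1 = 0
  · exact h1.2 h0
  · have h2 := w_le hf.1 hu hx
    rw [w, if_neg h0] at h2
    by_contra h3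
    have := wt_mono (p := p) (not_lt.1 h3)
    omega

theorem eta_homogeneous {f : KP p} {m s : ℕ} {N : ℤ}
    (hf : IsWeightedHomogeneous (w p (fun _ => 0)) f N)
    (hf' : f ∈ supported (ZMod p) {x | x.1 ≤ s ∧ x.2 < m}) :
    IsWeightedHomogeneous (w p (fun _ => 0)) (eta p f) N := by
  refine homogeneous_map (eta p) (fun x _ => ?_) hf' hf
  rw [eta_X]
  have h1 : ∀ y : ℕ × ℕ, w p (fun _ => 0) y = wt p y.2 := by
    intro y
    rw [w]
    split_ifs <;> simp
  split_ifs with h0
  · exact isWeightedHomogeneous_zero _ _ _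
  · have := isWeightedHomogeneous_X (ZMod p) (w p fun _ => 0) (x.1 - 1, x.2)
    rwa [h1, ← h1 x] at this

theorem mon_zero (m : ℕ) : Mon m (fun _ => 0) := fun _ _ _ _ => le_rfl

/-- The complex of `D = P` is acyclic. -/
theorem top {m s : ℕ} {N : ℤ} (hN : N < wt p m) (h0 : ¬ (s = 0 ∧ N = 0)) :
    (CC p m (fun _ => 0) (mon_zero m)).Ex s N := by
  rintro f ⟨hf, hd⟩
  have hK : f ∈ KK p m (fun _ => 0) s N := hf
  have hs := supp_small hN hK
  change dl p m (fun _ => 0) s f = 0 at hd
  rw [dl_eq hK.2] at hd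
  have h1 : eta p (ph p m (fun _ => 0) 0 f) = f :=
    eqOn_supported ((eta p).comp (ph p m (fun _ => 0) 0)) (AlgHom.id _ _)
      (fun x hx => eta_ph_zero_X hx.2) hs
  have h2 : ∀ j, eta p (ph p m (fun _ => 0) (j + 1) f) = ph p m (fun _ => 0) j (eta p f) :=
    fun j => eqOn_supported ((eta p).comp (ph p m (fun _ => 0) (j + 1)))
      ((ph p m (fun _ => 0) j).comp (eta p)) (fun x hx => eta_ph_succ_X j hx.2) hs
  have h3 := congrArg (eta p) hd
  rw [map_zero, map_sum, Finset.sum_range_succ', pow_zero, one_smul, h1] at h3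
  have h4 : f = ∑ i ∈ range (s + 1), (-1 : ZMod p) ^ i • ph p m (fun _ => 0) i (eta p f) := by
    rw [add_comm, add_eq_zero_iff_eq_neg] at h3
    refine h3.trans ?_
    rw [← Finset.sum_neg_distrib]
    refine Finset.sum_congr rfl fun i _ => ?_
    rw [map_smul, h2, pow_succ, mul_neg, mul_one, neg_smul, neg_neg]
  cases s with
  | zero =>
    change f = 0
    have h5 : f ∈ supported (ZMod p) {x : ℕ × ℕ | x.1 = 0} :=
      supported_mono (fun x hx => Nat.le_zero.1 hx.1) hs
    have h6 : eta p f = C (constantCoeff f) := by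
      have := eqOn_supported (eta p) ((Algebra.ofId (ZMod p) (KP p)).comp (aeval fun _ => (0 : ZMod p)))
        (V := {x : ℕ × ℕ | x.1 = 0}) (fun x hx => by
          rw [eta_X, if_pos (show x.1 = 0 from hx), AlgHom.comp_apply, aeval_X, map_zero]) h5
      rw [this, AlgHom.comp_apply]
      change C (aeval (fun _ => (0 : ZMod p)) f) = _
      congr 1
      simp [aeval_def, constantCoeff_eq, eval₂_zero'_apply]
    have h7 : constantCoeff f = 0 := by
      by_contra h7
      have h8 := hK.1 h7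
      rw [map_zero] at h8
      exact h0 ⟨rfl, h8.symm⟩
    rw [h4, h6, h7, C_0]
    simp
  | succ s =>
    refine ⟨eta p f, ?_, ?_⟩
    · change eta p f ∈ KK p m (fun _ => 0) s N
      refine ⟨eta_homogeneous hK.1 hs, supported_map (eta p) (fun x hx => ?_) hs⟩
      rw [eta_X]
      split_ifs with hx0
      · exact zero_mem _
      · exact X_mem ⟨by have := hx.1; dsimp only; omega, fun _ => hx.2⟩
    · change dl p m (fun _ => 0) s (eta p f) = f
      rw [dl_eq]
      · exact h4.symm
      · refine supported_map (eta p) (fun x hx => ?_) hs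
        rw [eta_X]
        split_ifs with hx0
        · exact zero_mem _
        · exact X_mem ⟨by have := hx.1; dsimp only; omega, fun _ => hx.2⟩

end Vale.Agent.P257.X
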