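import Vale.Agent.P257.X.Cob

/-! The tower of the comodule algebras `D_I` -/

namespace Vale.Agent.P257.X

open MvPolynomial Finset Vale.Agent.P257.Q.PC

variable {p : ℕ} [Fact p.Prime]

/-- The index `n` of the block `0` can be raised. -/
def Adm (m : ℕ) (I : ℕ → ℕ) (n : ℕ) : Prop := n < m ∧ ∀ n', n < n' → n' < m → I n + 1 ≤ I n'

omit [Fact p.Prime] in
theorem pderiv_tt (n j c : ℕ) (hj : j ≠ 0) : pderiv ((0, n) : ℕ × ℕ) (tt p j c) = 0 := by
  rw [tt]
  split_ifs
  · exact Derivation.map_one_eq_zero _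
  · rw [pderiv_X_of_ne]
    intro h
    rw [Prod.mk.injEq] at h
    exact hj h.1

theorem zero_mem_V {m s : ℕ} {n : ℕ} (h : n < m) : (0, n) ∈ V m s := ⟨Nat.zero_le _, fun _ => h⟩

omit [Fact p.Prime] in
theorem pderiv_pow_char (n : ℕ × ℕ) (f : KP p) (k : ℕ) (hk : k ≠ 0) :
    pderiv n (f ^ p ^ k) = 0 := by
  rw [pderiv_pow]
  have : ((p ^ k : ℕ) : KP p) = 0 := by
    obtain ⟨j, rfl⟩ : ∃ j, k = j + 1 := ⟨k - 1, by omega⟩
    rw [pow_succ, Nat.cast_mul, CharP.cast_eq_zero (KP p) p, mul_zero]
  rw [this, zero_mul, zero_mul]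

omit [Fact p.Prime] in
theorem pderiv_yy {m : ℕ} {I : ℕ → ℕ} {n : ℕ} (h : Adm m I n) {n' c : ℕ} (hn' : n' < m)
    (hc : c ≤ n' + 1) :
    pderiv ((0, n) : ℕ × ℕ) (yy p I n' c) = if n' = n ∧ c = n + 1 then 1 else 0 := by
  rw [yy]
  by_cases h0 : c = 0
  · rw [if_pos h0, if_neg (by omega)]
    exact Derivation.map_one_eq_zero _
  rw [if_neg h0]
  by_cases h1 : c = n + 1
  · subst h1
    rw [Nat.add_sub_cancel]
    by_cases h2 : n' = n
    · subst h2
      rw [if_pos ⟨rfl, rfl⟩, Nat.sub_self, pow_zero, pow_one, pderiv_X_self]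
    · rw [if_neg (by tauto)]
      have := h.2 n' (by omega) hn'
      exact pderiv_pow_char _ _ _ (by omega)
  · rw [if_neg (by tauto), pderiv_pow, pderiv_X_of_ne, mul_zero]
    intro h2
    rw [Prod.mk.injEq] at h2
    omega

theorem pderiv_ph_X {m : ℕ} {I : ℕ → ℕ} {n : ℕ} (h : Adm m I n) (i : ℕ) (z : ℕ × ℕ) :
    pderiv ((0, n) : ℕ × ℕ) (ph p m I i (X z)) = ph p m I i (pderiv ((0, n) : ℕ × ℕ) (X z)) := by
  obtain ⟨l, n'⟩ := z
  have key : ph p m I i (pderiv ((0, n) : ℕ × ℕ) (X (l, n'))) =
      if (l, n') = (0, n) then (1 : KP p) else 0 := by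
    split_ifs with h1
    · rw [h1, pderiv_X_self, map_one]
    · rw [pderiv_X_of_ne h1, map_zero]
  rw [key]
  cases i with
  | zero =>
    rw [ph_zero_X]
    dsimp only
    split_ifs with hl h1 h1
    · rw [Prod.mk.injEq] at h1
      obtain ⟨-, rfl⟩ := h1
      rw [coact_eq h.1, map_sum, Finset.sum_eq_single (n' + 1, 0)]
      · rw [pderiv_mul, pderiv_yy h h.1 (by dsimp only; omega), if_pos ⟨rfl, rfl⟩]
        simp [tt]
      · rintro ⟨a, b⟩ hab hne
        rw [HasAntidiagonal.mem_antidiagonal] at hab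
        rw [pderiv_mul, pderiv_yy h h.1 (by dsimp only at hab ⊢; omega), if_neg, zero_mul, zero_add,
          pderiv_pow, pderiv_tt _ _ _ (by omega), mul_zero, mul_zero]
        rintro ⟨-, h2⟩
        apply hne
        dsimp only at h2 hab
        rw [Prod.mk.injEq]
        omega
      · intro h2
        exact absurd (HasAntidiagonal.mem_antidiagonal.2 (Nat.add_zero _)) h2
    · rw [coact]
      split_ifs with hn'
      · rw [map_sum]
        refine Finset.sum_eq_zero ?_
        rintro ⟨a, b⟩ hab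
        rw [HasAntidiagonal.mem_antidiagonal] at hab
        rw [pderiv_mul, pderiv_yy h hn' (by dsimp only at hab ⊢; omega), if_neg, zero_mul, zero_add,
          pderiv_pow, pderiv_tt _ _ _ (by omega), mul_zero, mul_zero]
        rintro ⟨h2, h3⟩
        exact h1 (by rw [hl, h2])
      · exact map_zero _
    · rw [Prod.mk.injEq] at h1
      exact absurd h1.1 hl
    · rw [pderiv_X_of_ne]
      intro h2
      rw [Prod.mk.injEq] at h2
      omega
  | succ i =>
    rw [ph_succ, δ_X]
    dsimp only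
    by_cases h1 : l < i + 1
    · rw [if_pos h1]
      split_ifs with h2
      · rw [h2, pderiv_X_self]
      · rw [pderiv_X_of_ne h2]
    · have h4 : ¬ ((l, n') = (0, n)) := by rw [Prod.mk.injEq]; omega
      rw [if_neg h1, if_neg h4]
      split_ifs with h2
      · rw [map_sum]
        refine Finset.sum_eq_zero fun a _ => ?_
        rw [pderiv_mul, pderiv_pow, pderiv_tt _ _ _ (by omega), pderiv_tt _ _ _ (by omega)]
        ring
      · rw [pderiv_X_of_ne]
        intro h2
        rw [Prod.mk.injEq] at h2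
        omega

theorem pderiv_ph {m : ℕ} {I : ℕ → ℕ} {n : ℕ} (h : Adm m I n) (i : ℕ) (f : KP p) :
    pderiv ((0, n) : ℕ × ℕ) (ph p m I i f) = ph p m I i (pderiv ((0, n) : ℕ × ℕ) f) :=
  pderiv_comm _ _ _ (pderiv_ph_X h i) f

theorem pderiv_dl {m : ℕ} {I : ℕ → ℕ} {n : ℕ} (h : Adm m I n) (s : ℕ) (f : KP p) :
    pderiv ((0, n) : ℕ × ℕ) (dl p m I s f) = dl p m I s (pderiv ((0, n) : ℕ × ℕ) f) := by
  rw [dl]
  simp only [LinearMap.add_apply, LinearMap.sum_apply, LinearMap.smul_apply, LinearMap.id_apply,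
    map_add, map_sum, Derivation.map_smul, AlgHom.toLinearMap_apply, pderiv_ph h]

/-- The derivative as an additive homomorphism. -/
noncomputable def DD (p n : ℕ) : KP p →+ KP p :=
  (pderiv ((0, n) : ℕ × ℕ) : Derivation (ZMod p) (KP p) (KP p)).toLinearMap.toAddMonoidHom

omit [Fact p.Prime] in
theorem DD_apply (n : ℕ) (f : KP p) : DD p n f = pderiv ((0, n) : ℕ × ℕ) f := rfl

omit [Fact p.Prime] in
theorem DD_iter (n k : ℕ) (f : KP p) : (DD p n)^[k] f = (pderiv ((0, n) : ℕ × ℕ))^[k] f := rfl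

theorem mem_CC {m : ℕ} {I : ℕ → ℕ} (hI : Mon m I) {s : ℕ} {N : ℤ} {f : KP p} :
    f ∈ (CC p m I hI).K s N ↔ IsWeightedHomogeneous (w p I) f N ∧
      f ∈ supported (ZMod p) (V m s) := Iff.rfl

theorem CC_d {m : ℕ} {I : ℕ → ℕ} (hI : Mon m I) (s : ℕ) (f : KP p) :
    (CC p m I hI).d s f = dl p m I s f := rfl

theorem der {m : ℕ} {I : ℕ → ℕ} (hI : Mon m I) {n : ℕ} (h : Adm m I n) :
    Cpx.Der (CC p m I hI) p ((p : ℤ) ^ I n * wt p n) (DD p n) where
  mem s N f hf := by
    rw [mem_CC] at hf ⊢
    refine ⟨IsWeightedHomogeneous.pderiv hf.1 ?_, pderiv_supported _ hf.2⟩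
    rw [w, if_pos rfl, sub_add_cancel]
  comm s N f _ := pderiv_dl h s f
  pow s N f _ := pderiv_iter_p _ f
  ex1 s N f hf h0 := by
    classical
    rw [mem_CC] at hf
    refine ⟨anti (0, n) f, (mem_CC hI).2 ⟨?_, anti_supported _ (zero_mem_V h.1) hf.2⟩,
      pderiv_anti _ h0⟩
    have := anti_homogeneous (0, n) hf.1
    rwa [w, if_pos rfl] at this
  ex2 s N f hf h0 := by
    rw [mem_CC] at hf
    have hp := (Fact.out : p.Prime)
    refine ⟨-(X (0, n) ^ (p - 1) * f), (mem_CC hI).2 ⟨?_, ?_⟩, ?_⟩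
    · have h1 := ((isWeightedHomogeneous_X (ZMod p) (w p I) (0, n)).pow (p - 1)).mul hf.1
      rw [w, if_pos rfl] at h1
      have h2 : (p - 1) • ((p : ℤ) ^ I n * (wt p n : ℤ)) + N =
          N + (p - 1 : ℤ) * ((p : ℤ) ^ I n * wt p n) := by
        rw [nsmul_eq_mul, Nat.cast_sub hp.one_le]
        push_cast
        ring
      dsimp only at h1
      rw [h2] at h1
      exact h1.neg
    · exact neg_mem (mul_mem (pow_mem (X_mem (zero_mem_V h.1)) _) hf.2)
    · rw [DD_iter]
      have h3 : ∀ (j : ℕ) (g : KP p), (pderiv ((0, n) : ℕ × ℕ))^[j] (-g) =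
          -(pderiv ((0, n) : ℕ × ℕ))^[j] g := by
        intro j g
        induction j with
        | zero => rfl
        | succ j ih => rw [Function.iterate_succ_apply', ih, map_neg, Function.iterate_succ_apply']
      rw [h3, pderiv_iter_mul_pow _ h0, ZMod.wilsons_lemma]
      simp

/-- Raise the threshold `n`. -/
def raise (I : ℕ → ℕ) (n : ℕ) : ℕ → ℕ := Function.update I n (I n + 1)

theorem raise_self (I : ℕ → ℕ) (n : ℕ) : raise I n n = I n + 1 := Function.update_self ..

theorem raise_ne (I : ℕ → ℕ) {n a : ℕ} (h : a ≠ n) : raise I n a = I a := Function.update_of_ne h ..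

theorem Adm.mon {m : ℕ} {I : ℕ → ℕ} {n : ℕ} (h : Adm m I n) (hI : Mon m I) : Mon m (raise I n) := by
  intro a b hab hb
  by_cases h1 : a = n
  · subst h1
    by_cases h2 : b = a
    · rw [h2]
    · rw [raise_self, raise_ne _ h2]
      exact h.2 b (by omega) hb
  · rw [raise_ne _ h1]
    by_cases h2 : b = n
    · subst h2
      rw [raise_self]
      have := hI a b hab hb
      omega
    · rw [raise_ne _ h2]
      exact hI a b hab hb

theorem frob_tt (n : ℕ) {j : ℕ} (hj : j ≠ 0) (c : ℕ) :
    frob (0, n) (tt p j c) = tt p j c := by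
  rw [tt]
  split_ifs
  · exact map_one _
  · rw [frob_X, if_neg]
    intro h
    rw [Prod.mk.injEq] at h
    exact hj h.1

theorem frob_yy {m : ℕ} {I : ℕ → ℕ} {n : ℕ} (hI : Mon m I) (h : Adm m I n) {n' c : ℕ}
    (hn' : n' < m) (hc : c ≤ n' + 1) :
    frob (0, n) (yy p (raise I n) n' c) = if n' = n then yy p I n c ^ p else yy p I n' c := by
  rw [yy]
  by_cases h0 : c = 0
  · rw [if_pos h0, map_one]
    split_ifs
    · rw [yy, if_pos h0, one_pow]
    · rw [yy, if_pos h0]
  · rw [if_neg h0, map_pow, frob_X]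
    by_cases h1 : n' = n
    · subst h1
      rw [if_pos rfl, raise_self, yy, if_neg h0]
      by_cases h2 : c = n' + 1
      · subst h2
        rw [Nat.add_sub_cancel, if_pos rfl, raise_self, Nat.sub_self, Nat.sub_self, pow_zero,
          pow_one, pow_one]
      · have h3 : c - 1 ≠ n' := by omega
        rw [if_neg (by rw [Prod.mk.injEq]; tauto), raise_ne _ h3, ← pow_mul, ← pow_succ]
        have := hI (c - 1) n' (by omega) h.1
        rw [show I n' + 1 - I (c - 1) = I n' - I (c - 1) + 1 by omega]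
    · rw [if_neg h1, raise_ne _ h1, yy, if_neg h0]
      by_cases h2 : c - 1 = n
      · rw [h2, if_pos rfl, raise_self, ← pow_mul, ← pow_succ']
        have := h.2 n' (by omega) hn'
        rw [show I n' - (I n + 1) + 1 = I n' - I n by omega]
      · rw [if_neg (by rw [Prod.mk.injEq]; tauto), raise_ne _ h2]

theorem frob_ph {m : ℕ} {I : ℕ → ℕ} {n : ℕ} (hI : Mon m I) (h : Adm m I n) (i : ℕ) (f : KP p) :
    frob (0, n) (ph p m (raise I n) i f) = ph p m I i (frob (0, n) f) := by
  have : (frob (0, n)).comp (ph p m (raise I n) i) = (ph p m I i).comp (frob (0, n)) := by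
    refine MvPolynomial.algHom_ext fun x => ?_
    obtain ⟨l, n'⟩ := x
    simp only [AlgHom.comp_apply]
    rw [frob_X]
    cases i with
    | zero =>
      rw [ph_zero_X]
      dsimp only
      split_ifs with hl h1 h1
      · rw [Prod.mk.injEq] at h1
        obtain ⟨-, rfl⟩ := h1
        rw [map_pow, ph_zero_X, if_pos rfl, coact_eq h.1, coact_eq h.1, map_sum,
          show ((∑ x ∈ antidiagonal (n' + 1), yy p I n' x.1 * tt p 1 x.2 ^ p ^ (x.1 + I n')) ^ p) =
            (∑ x ∈ antidiagonal (n' + 1), yy p I n' x.1 * tt p 1 x.2 ^ p ^ (x.1 + I n')) ^ p ^ 1 by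
            rw [pow_one], pow_sum]
        refine Finset.sum_congr rfl fun x hx => ?_
        rw [HasAntidiagonal.mem_antidiagonal] at hx
        rw [map_mul, map_pow, frob_tt _ (by omega), frob_yy hI h h.1 (by omega), if_pos rfl,
          raise_self, mul_pow, pow_one, ← pow_mul, ← pow_succ, add_assoc]
      · have h2 : n' ≠ n := by
          intro h2
          exact h1 (by rw [hl, h2])
        rw [ph_zero_X, if_pos hl, coact, coact]
        dsimp only
        split_ifs with hn'
        · rw [map_sum]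
          refine Finset.sum_congr rfl fun x hx => ?_
          rw [HasAntidiagonal.mem_antidiagonal] at hx
          rw [map_mul, map_pow, frob_tt _ (by omega), frob_yy hI h hn' (by omega), if_neg h2,
            raise_ne _ h2]
        · exact map_zero _
      · rw [Prod.mk.injEq] at h1
        exact absurd h1.1 hl
      · rw [ph_zero_X, if_neg hl, frob_X, if_neg]
        rw [Prod.mk.injEq]; omega
    | succ i =>
      rw [ph_succ, ph_succ, δ_X]
      dsimp only
      by_cases h1 : l < i + 1
      · rw [if_pos h1]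
        split_ifs with h2
        · rw [frob_X, if_pos h2, map_pow, δ_X, if_pos (by dsimp only; omega)]
        · rw [frob_X, if_neg h2, δ_X, if_pos h1]
      · have h4 : ¬ ((l, n') = (0, n)) := by rw [Prod.mk.injEq]; omega
        rw [if_neg h1, if_neg h4, δ_X, if_neg h1]
        dsimp only
        split_ifs with h2
        · rw [map_sum]
          refine Finset.sum_congr rfl fun a _ => ?_
          rw [map_mul, map_pow, frob_tt _ (by omega), frob_tt _ (by omega)]
        · rw [frob_X, if_neg]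
          rw [Prod.mk.injEq]; omega
  exact DFunLike.congr_fun this f

theorem pderiv_frob (n : ℕ) (f : KP p) :
    pderiv ((0, n) : ℕ × ℕ) (frob (0, n) f) = 0 := by
  induction f using MvPolynomial.induction_on with
  | C a => rw [← algebraMap_eq, AlgHom.commutes, algebraMap_eq, pderiv_C]
  | add f g hf hg => rw [map_add, map_add, hf, hg, add_zero]
  | mul_X f z hf =>
    rw [map_mul, pderiv_mul, hf, zero_mul, zero_add, frob_X]
    split_ifs with h
    · have := pderiv_pow_char (0, n) (X (0, n) : KP p) 1 one_ne_zero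
      rw [pow_one] at this
      rw [this, mul_zero]
    · rw [pderiv_X_of_ne h, mul_zero]

theorem iso {m : ℕ} {I : ℕ → ℕ} (hI : Mon m I) {n : ℕ} (h : Adm m I n) :
    Cpx.Iso (CC p m (raise I n) (h.mon hI)) ((CC p m I hI).Ker (der hI h))
      ((frob (p := p) ((0, n) : ℕ × ℕ)).toLinearMap.toAddMonoidHom) where
  mem s N f hf := by
    rw [mem_CC] at hf
    rw [Cpx.mem_ker, mem_CC]
    refine ⟨⟨homogeneous_map (frob (0, n)) (fun x _ => ?_) hf.2 hf.1,
      supported_map (frob (0, n)) (V := V m s) (fun x hx => ?_) hf.2⟩, pderiv_frob n f⟩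
    · rw [frob_X]
      split_ifs with hx
      · subst hx
        have := (isWeightedHomogeneous_X (ZMod p) (w p I) (0, n)).pow p
        rw [w, if_pos rfl] at this ⊢
        rw [raise_self]
        rwa [show p • ((p : ℤ) ^ I n * (wt p n : ℤ)) = (p : ℤ) ^ (I n + 1) * wt p n by
          rw [nsmul_eq_mul]; ring] at this
      · have h2 : w p (raise I n) x = w p I x := by
          obtain ⟨l, n'⟩ := x
          rw [w, w]
          split_ifs with hl
          · rw [raise_ne]
            rintro rfl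
            dsimp only at hl
            exact hx (by rw [hl])
          · rfl
        rw [h2]
        exact isWeightedHomogeneous_X _ _ _
    · rw [frob_X]
      split_ifs with h1
      · exact pow_mem (X_mem (zero_mem_V h.1)) _
      · exact X_mem hx
  comm s N f _ := by
    change frob _ (dl p m (raise I n) s f) = dl p m I s (frob _ f)
    rw [dl, dl]
    simp only [LinearMap.add_apply, LinearMap.sum_apply, LinearMap.smul_apply, LinearMap.id_apply,
      map_add, map_sum, map_smul, AlgHom.toLinearMap_apply, frob_ph hI h]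
  inj := frob_injective _
  surj s N f hf := by
    rw [Cpx.mem_ker, mem_CC] at hf
    refine ⟨unfrob (0, n) f, (mem_CC _).2 ⟨unfrob_homogeneous (0, n) ?_ ?_ hf.1.1 hf.2,
      unfrob_supported _ hf.1.2⟩, frob_unfrob _ hf.2⟩
    · rw [w, if_pos rfl, w, if_pos rfl, raise_self]; ring
    · rintro ⟨l, n'⟩ hx
      rw [w, w]
      split_ifs with hl
      · rw [raise_ne]
        rintro rfl
        dsimp only at hl
        exact hx (by rw [hl])
      · rfl

end Vale.Agent.P257.X
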